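import Vale.Agent.P148.R2.H910.RowPc

/-!
# Row (door) for the scene of the comb (P148): the annealed half

`row_door_of` : the row (door) for the scene `H172.sc`, from the deterministic bound of the mean over
the captured excursions by the mean of `MQ` of the mixed phases.
-/

set_option linter.unusedSectionVars false

open MeasureTheory Set Metric Topology Filter ProbabilityTheory
open scoped ENNReal NNReal symmDiff

namespace Vale.Agent.P148.R2.H910

open H592 H184 H144 H953 H598 H566 H291 H172 H678 H400 _root_.P148.H729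
open Vale.Agent.P148.R2.N (nc ms)
open _root_.P148 hiding col

universe u

/-- The deterministic bound of the row (door): one set of points, one pair of colourings, one
arc. -/
def DoorBd (N M : ℕ) (Θ : Dt → ℂ) (m : ℕ) (x : ℂ) (L : ℝ) (k : ℝ≥0∞) {X : Set ℂ}
    {b : ZMod 3 → ℂ} (hM : 0 < M) (h : HullTri X b) (K : Set ℕ) (Jr : Set ℂ)
    (i : (X → Bool) × (X → Bool)) (j : Fin (nA N)) : Prop :=
  ∃ (_ : Fintype X) (_ : Fintype (X → Bool)) (x₀ : X) (ω : ℂ → Bool),
    (∀ z ∈ X, z ∈ EJX M X K Jr (mc M X i) → ω z = sgX X (mc M X i) z) ∧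
    (((fscOf hM h).toA N).w i).msum (((fscOf hM h).toA N).Arc i j) (fun σ d =>
      ENNReal.ofReal (‖(((fscOf hM h).toA N).w i).T.cls σ d
          ((((fscOf hM h).toA N).w i).th Θ) + (fscOf hM h).hv N Θ i j σ d‖ ^ 2)) ≤
      k * ((2 ^ Fintype.card X)⁻¹ * ∑ τ : X → Bool,
        MQ X (sqr x L) (fun ij : Fin m × Fin m => sub x (L / m) ij.1 ij.2)
          (H184.pc (idmap X x₀) (mixB X (EJX M X K Jr (mc M X i)) ω τ)) Θ)

/-- **Row (door)** from the deterministic bound. -/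
theorem row_door_of {τ : ℂ} {κ : ℝ} {Θ : Dt → ℂ} (hΘ : Wt τ κ Θ) {c : ℝ} (hc : 0 < c) (N : ℕ)
    {M : ℕ} (hM : 0 < M) {m : ℕ} (hm : 0 < m) (x : ℂ) {L : ℝ} (hL : 0 < L)
    (hR : sqr x L ⊆ ball 0 9) {k : ℝ≥0∞} (hk : k ≠ ⊤) (G : Set Pt → Prop)
    (hG : ∀ T, G T → GoodT c M T) (K : Fin (nA N) → Set ℕ) (Jr : Fin (nA N) → Set ℂ)
    (h : ∀ T (hT : GoodT c M T), G T → ∀ i, (fscOf hM hT.site.hull).p i ≠ 0 → ∀ j,
      DoorBd N M Θ m x L k hM hT.site.hull (K j) (Jr j) i j) :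
    EvZero.{u} fun T => ⨆ _ : G T, (sc N M T).cm (fun i J σ d =>
        ENNReal.ofReal (‖((sc N M T).w i).T.cls σ d (((sc N M T).w i).th Θ) +
          (fsc M T).hv N Θ i J σ d‖ ^ 2)) := by
  refine door_row_comb hΘ hm x hL hR (M := M) hc hk G (fun T => sc N M T) (fun T i J σ d =>
        ENNReal.ofReal (‖((sc N M T).w i).T.cls σ d (((sc N M T).w i).th Θ) +
          (fsc M T).hv N Θ i J σ d‖ ^ 2)) K Jr ?_
  intro T hT
  have hT' := hG T hT
  have key : ∀ S : FScene M, S = fscOf hM hT'.site.hull →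
      ∃ e : (S.toA N).ι → (site T 9 → Bool) × (site T 9 → Bool),
      CombSc 9 M c T (S.toA N).toScene e ∧ ∀ i, (S.toA N).p i ≠ 0 →
        ((S.toA N).w i).X = site T 9 ∧ ∀ j,
        ∃ (_ : Fintype ((S.toA N).w i).X) (_ : Fintype (((S.toA N).w i).X → Bool))
          (x₀ : ((S.toA N).w i).X) (ω : ℂ → Bool),
          (∀ z ∈ site T 9, z ∈ EJX M (site T 9) (K j) (Jr j) (cmb M (site T 9) (e i)) →
            ω z = sgX (site T 9) (cmb M (site T 9) (e i)) z) ∧
          ((S.toA N).w i).msum ((S.toA N).Arc i j) (fun σ d =>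
            ENNReal.ofReal (‖((S.toA N).w i).T.cls σ d (((S.toA N).w i).th Θ) +
              S.hv N Θ i j σ d‖ ^ 2)) ≤
            k * ((2 ^ Fintype.card ((S.toA N).w i).X)⁻¹ * ∑ τ : ((S.toA N).w i).X → Bool,
              MQ ((S.toA N).w i).X (sqr x L) (fun ij : Fin m × Fin m => sub x (L / m) ij.1 ij.2)
                (H184.pc (idmap ((S.toA N).w i).X x₀) (mixB ((S.toA N).w i).X
                  (EJX M (site T 9) (K j) (Jr j) (cmb M (site T 9) (e i))) ω τ)) Θ) := by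
    rintro S rfl
    exact ⟨fun i => i, combSc_fscOf hM hT', fun i hi => ⟨rfl, fun j => h T hT' hT i hi j⟩⟩
  exact key (fsc M T) (fsc_eq hM hT'.site)

end Vale.Agent.P148.R2.H910
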