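import Vale.Agent.P148.R2.H172.Asm
import Vale.Agent.P148.R2.H910.RowDoor0

/-!
# Rows (pc) and (door) in the literal form of H172.Asm

* `rowPc` : the row (pc);
* `rowDoor_of` : the row (door) from the deterministic bound `DoorBd`.
-/

open MeasureTheory Set Metric Topology Filter ProbabilityTheory
open scoped ENNReal NNReal

namespace Vale.Agent.P148.R2.H910

open H592 H184 H144 H953 H598 H566 H291 H172 H678 H400 _root_.P148.H729
open Vale.Agent.P148.R2.N (nc ms)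
open _root_.P148 hiding col

universe u

/-- **Row (pc).** -/
theorem rowPc {τ : ℂ} {κ : ℝ} {Θ : Dt → ℂ} (hΘ : Wt τ κ Θ) : H172.RowPc.{u} Θ :=
  fun N => row_pc.{u} hΘ N

/-- **Row (door)** from the deterministic bound: `x`, `L`, `m` describe the square, `k` may depend
on `N` and `M`. -/
theorem rowDoor_of {τ : ℂ} {κ : ℝ} {Θ : Dt → ℂ} (hΘ : Wt τ κ Θ) {m : ℕ} (hm : 0 < m) (x : ℂ)
    {L : ℝ} (hL : 0 < L) (hR : sqr x L ⊆ ball 0 9)
    (K : ∀ N : ℕ, ℕ → Fin (nA N) → Set ℕ) (Jr : ∀ N : ℕ, ℕ → Fin (nA N) → Set ℂ)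
    (h : ∀ N, ∀ᶠ M in atTop, ∃ k : ℝ≥0∞, k ≠ ⊤ ∧ Ev.{u} fun T =>
      ∀ (c : ℝ) (hM : 0 < M) (hT : GoodT c M T), 0 < c →
        ∀ i, (fscOf hM hT.site.hull).p i ≠ 0 → ∀ j,
          DoorBd N M Θ m x L k hM hT.site.hull (K N M j) (Jr N M j) i j) :
    H172.RowDoor.{u} Θ := by
  obtain ⟨c, hc, hG⟩ := exists_goodT.{u}
  intro N
  filter_upwards [h N, eventually_gt_atTop 0] with M ⟨k, hk, hE⟩ hM
  refine ⟨fun T => GoodT c M T ∧ _, (hG M hM).and hE, ?_⟩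
  exact row_door_of hΘ hc N hM hm x hL hR hk _ (fun T hT => hT.1) (K N M) (Jr N M)
    fun T hT' hT i hi j => hT.2 c hM hT' hc i hi j

end Vale.Agent.P148.R2.H910
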