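import Mathlib.Data.ENNReal.Inv
import Mathlib.Data.Fintype.BigOperators

/-!
# Independence of the enumeration (P148)
-/

open scoped ENNReal

namespace Vale.Agent.P148.R2.H910

/-- Means do not depend on the enumeration. -/
theorem mean_inst {A B : Type*} (i j : Fintype A) (k l : Fintype B) (f : B → ℝ≥0∞) :
    (2 ^ @Fintype.card A i)⁻¹ * @Finset.sum B _ _ (@Finset.univ B k) f =
      (2 ^ @Fintype.card A j)⁻¹ * @Finset.sum B _ _ (@Finset.univ B l) f := by
  rw [Subsingleton.elim i j, Subsingleton.elim k l]

/-- Sums do not depend on the enumeration. -/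
theorem sum_inst {A M : Type*} [AddCommMonoid M] (i j : Fintype A) (f : A → M) :
    @Finset.sum A M _ (@Finset.univ A i) f = @Finset.sum A M _ (@Finset.univ A j) f :=
  Finset.sum_congr (Finset.ext fun x => ⟨fun _ => @Finset.mem_univ A j x,
    fun _ => @Finset.mem_univ A i x⟩) fun _ _ => rfl

end Vale.Agent.P148.R2.H910
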