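import Vale.Agent.P148.R2.H203.T1

/-!
# Localisation by orthogonality (P148, T line)

For a rotating weight `Θ`, a set of faces `A` and a family `S σ` of classes which contains every
class crossing the boundary of `A`, the mean energies obey Pythagoras:
`E Σ_{S} |V(Θ)|² = E Σ_{S} |V(Θ 1_A)|² + E Σ_{S} |V(Θ 1_{not A})|²`.
So the classes which cross the boundary of `A` carry at least as much energy with the full weight as
with the weight restricted to `A` (idea of helper953).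
-/

set_option linter.unusedSectionVars false

open Function ComplexConjugate

namespace Vale.Agent.P148.R2.H910

open H258 H203

variable {V D : Type*} (T : Tri V D)

section fixed

variable [Fintype D] (σ : V → Bool)

open Classical in
/-- The pair sum of two weights. -/
noncomputable def pair (Θ Θ' : D → ℂ) : ℂ :=
  ∑ d, ∑ e, (if T.Rel σ d e then Θ d * conj (Θ' e) else 0)

theorem tot_eq_pair (Θ : D → ℂ) : tot T σ Θ = (pair T σ Θ Θ).re := by
  unfold tot pair
  rfl

theorem pair_add_left (Θ₁ Θ₂ Θ' : D → ℂ) :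
    pair T σ (fun d => Θ₁ d + Θ₂ d) Θ' = pair T σ Θ₁ Θ' + pair T σ Θ₂ Θ' := by
  classical
  unfold pair
  rw [← Finset.sum_add_distrib]
  apply Finset.sum_congr rfl; intro d _
  rw [← Finset.sum_add_distrib]
  apply Finset.sum_congr rfl; intro e _
  split_ifs
  · ring
  · simp

theorem pair_add_right (Θ' Θ₁ Θ₂ : D → ℂ) :
    pair T σ Θ' (fun d => Θ₁ d + Θ₂ d) = pair T σ Θ' Θ₁ + pair T σ Θ' Θ₂ := by
  classical
  unfold pair
  rw [← Finset.sum_add_distrib]
  apply Finset.sum_congr rfl; intro d _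
  rw [← Finset.sum_add_distrib]
  apply Finset.sum_congr rfl; intro e _
  split_ifs
  · rw [map_add]; ring
  · simp

theorem pair_conj (Θ Θ' : D → ℂ) : pair T σ Θ' Θ = conj (pair T σ Θ Θ') := by
  classical
  unfold pair
  rw [map_sum, Finset.sum_comm]
  apply Finset.sum_congr rfl; intro d _
  rw [map_sum]
  apply Finset.sum_congr rfl; intro e _
  by_cases h : T.Rel σ d e
  · rw [if_pos h, if_pos (T.rel_symm h), map_mul, Complex.conj_conj, mul_comm]
  · rw [if_neg h, if_neg (fun hh => h (T.rel_symm hh)), map_zero]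

/-- Expansion of the energy of a sum of two weights. -/
theorem tot_add (Θ₁ Θ₂ : D → ℂ) : tot T σ (fun d => Θ₁ d + Θ₂ d) =
    tot T σ Θ₁ + tot T σ Θ₂ + 2 * (pair T σ Θ₁ Θ₂).re := by
  rw [tot_eq_pair, tot_eq_pair, tot_eq_pair, pair_add_left, pair_add_right, pair_add_right,
    pair_conj T σ Θ₁ Θ₂]
  simp only [Complex.add_re, Complex.conj_re]
  ring

theorem rs_add_not (A : D → Prop) (Θ : D → ℂ) :
    Θ = fun d => rs A Θ d + rs (fun d => ¬ A d) Θ d := by
  classical
  funext d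
  unfold rs
  by_cases h : A d <;> simp [h]

theorem rs_comm (A B : D → Prop) (Θ : D → ℂ) : rs A (rs B Θ) = rs B (rs A Θ) := by
  classical
  funext d
  unfold rs
  by_cases h : A d <;> by_cases h' : B d <;> simp [h, h']

/-- The cross term only sees the classes which cross the boundary of `A`. -/
theorem pair_cross {A S : D → Prop} (hS : Sat T σ S)
    (hc : ∀ d e, T.Rel σ d e → A d → ¬ A e → S d) (Θ : D → ℂ) :
    pair T σ (rs S (rs A Θ)) (rs S (rs (fun d => ¬ A d) Θ)) =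
      pair T σ (rs A Θ) (rs (fun d => ¬ A d) Θ) := by
  classical
  unfold pair
  apply Finset.sum_congr rfl; intro d _
  apply Finset.sum_congr rfl; intro e _
  by_cases hr : T.Rel σ d e
  · rw [if_pos hr, if_pos hr]
    by_cases h1 : A d
    · by_cases h2 : A e
      · unfold rs; simp [h2]
      · have h3 := hc d e hr h1 h2
        have h4 := hS d e hr h3
        unfold rs; simp [h3, h4]
    · unfold rs; simp [h1]
  · rw [if_neg hr, if_neg hr]

end fixed

section energy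

variable [Fintype D] [Fintype V]

open Classical in
/-- Weights with disjoint supports are orthogonal in the mean. -/
theorem sum_pair_rs (hP : T.Planar) {τ : ℂ} (hτ : τ ^ 2 + τ + 1 = 0) {Θ : D → ℂ}
    (h : ∀ d, Θ (T.nxt d) = τ ^ 2 * Θ d) (hg : ∀ d, ¬ T.Good d → Θ d = 0)
    {A : D → Prop} (hA : ∀ d, A (T.nxt d) ↔ A d) :
    ∑ σ : V → Bool, pair T σ (rs A Θ) (rs (fun d => ¬ A d) Θ) = 0 := by
  have hA' : ∀ d, ¬ A (T.nxt d) ↔ ¬ A d := fun d => not_congr (hA d)
  have h1 := T.energy hP hτ (rs_rot h hA) (rs_rot (F := fun d => ¬ A d) h hA') (rs_good hg A)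
  have h2 : ∑ d, rs A Θ d * conj (rs (fun d => ¬ A d) Θ d) = 0 := by
    apply Finset.sum_eq_zero
    intro d _
    unfold rs
    by_cases hd : A d <;> simp [hd]
  rw [h2, mul_zero] at h1
  have h3 : ∑ σ : V → Bool, pair T σ (rs A Θ) (rs (fun d => ¬ A d) Θ) = ∑ σ : V → Bool,
      ∑ d, ∑ e, (if T.Rel σ d e then rs A Θ d * conj (rs (fun d => ¬ A d) Θ e) else 0) := by
    apply Finset.sum_congr rfl
    intro σ _
    unfold pair
    rfl
  rw [h3]
  have h4 : (4 : ℂ) ≠ 0 := by norm_num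
  exact (mul_eq_zero.1 h1).resolve_left h4

open Classical in
/-- **Localisation by orthogonality.** -/
theorem orth (hP : T.Planar) {τ : ℂ} (hτ : τ ^ 2 + τ + 1 = 0) {Θ : D → ℂ}
    (h : ∀ d, Θ (T.nxt d) = τ ^ 2 * Θ d) (hg : ∀ d, ¬ T.Good d → Θ d = 0)
    {A : D → Prop} (hA : ∀ d, A (T.nxt d) ↔ A d) (S : (V → Bool) → D → Prop)
    (hS : ∀ σ, Sat T σ (S σ))
    (hc : ∀ σ d e, T.Rel σ d e → A d → ¬ A e → S σ d) :
    ∑ σ : V → Bool, tot T σ (rs (S σ) Θ) =
      ∑ σ : V → Bool, tot T σ (rs (S σ) (rs A Θ)) +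
        ∑ σ : V → Bool, tot T σ (rs (S σ) (rs (fun d => ¬ A d) Θ)) := by
  classical
  have e1 : ∀ σ : V → Bool, tot T σ (rs (S σ) Θ) = tot T σ (rs (S σ) (rs A Θ)) +
      tot T σ (rs (S σ) (rs (fun d => ¬ A d) Θ)) +
        2 * (pair T σ (rs A Θ) (rs (fun d => ¬ A d) Θ)).re := by
    intro σ
    rw [← pair_cross T σ (hS σ) (hc σ) Θ, ← tot_add]
    congr 1
    funext d
    unfold rs
    by_cases h1 : S σ d <;> by_cases h2 : A d <;> simp [h1, h2]
  rw [Finset.sum_congr rfl (fun σ _ => e1 σ), Finset.sum_add_distrib, Finset.sum_add_distrib]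
  have e2 : ∑ σ : V → Bool, 2 * (pair T σ (rs A Θ) (rs (fun d => ¬ A d) Θ)).re = 0 := by
    rw [← Finset.mul_sum, ← Complex.re_sum, sum_pair_rs T hP hτ h hg hA]
    simp
  rw [e2, add_zero]

/-- The classes which cross the boundary of `A`. -/
def Crs (A : D → Prop) (σ : V → Bool) (d : D) : Prop :=
  (∃ e, T.Rel σ e d ∧ A e) ∧ (∃ e, T.Rel σ e d ∧ ¬ A e)

omit [Fintype D] [Fintype V] in
theorem crs_sat [Finite D] (A : D → Prop) (σ : V → Bool) : Sat T σ (Crs T A σ) := by
  rintro d e hr ⟨⟨f, h1, h2⟩, ⟨g, h3, h4⟩⟩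
  exact ⟨⟨f, T.rel_trans h1 hr, h2⟩, ⟨g, T.rel_trans h3 hr, h4⟩⟩

omit [Fintype D] [Fintype V] in
theorem crs_cross [Finite D] (A : D → Prop) (σ : V → Bool) (d e : D) (hr : T.Rel σ d e)
    (h1 : A d) (h2 : ¬ A e) : Crs T A σ d :=
  ⟨⟨d, T.rel_refl hr.1, h1⟩, ⟨e, T.rel_symm hr, h2⟩⟩

open Classical in
/-- A family of classes containing all crossing ones: the restricted energy is at most the full
energy. -/
theorem orth_le (hP : T.Planar) {τ : ℂ} (hτ : τ ^ 2 + τ + 1 = 0) {Θ : D → ℂ}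
    (h : ∀ d, Θ (T.nxt d) = τ ^ 2 * Θ d) (hg : ∀ d, ¬ T.Good d → Θ d = 0)
    {A : D → Prop} (hA : ∀ d, A (T.nxt d) ↔ A d) (S : (V → Bool) → D → Prop)
    (hS : ∀ σ, Sat T σ (S σ))
    (hc : ∀ σ d e, T.Rel σ d e → A d → ¬ A e → S σ d) :
    ∑ σ : V → Bool, tot T σ (rs (S σ) (rs A Θ)) ≤ ∑ σ : V → Bool, tot T σ (rs (S σ) Θ) := by
  rw [orth T hP hτ h hg hA S hS hc]
  have : 0 ≤ ∑ σ : V → Bool, tot T σ (rs (S σ) (rs (fun d => ¬ A d) Θ)) :=
    Finset.sum_nonneg fun σ _ => tot_nonneg T σ _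
  linarith

open Classical in
/-- **Missing energy.** Local classes `L σ` inside `A` and every other class which meets `A` lies in
`S σ`; the energy missing from the local classes in `A` is at most the full energy of `S σ`. -/
theorem missing_le (hP : T.Planar) {τ : ℂ} (hτ : τ ^ 2 + τ + 1 = 0) {Θ : D → ℂ}
    (h : ∀ d, Θ (T.nxt d) = τ ^ 2 * Θ d) (hg : ∀ d, ¬ T.Good d → Θ d = 0)
    {A : D → Prop} (hA : ∀ d, A (T.nxt d) ↔ A d) (L S : (V → Bool) → D → Prop)
    (hL : ∀ σ, Sat T σ (L σ)) (hLA : ∀ σ d, L σ d → A d)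
    (hS : ∀ σ, Sat T σ (S σ)) (hAS : ∀ σ d, A d → T.Mi σ d → L σ d ∨ S σ d) :
    2 ^ Fintype.card V / 4 * ∑ d, ‖rs A Θ d‖ ^ 2 - ∑ σ : V → Bool, tot T σ (rs (L σ) Θ) ≤
      ∑ σ : V → Bool, tot T σ (rs (S σ) Θ) := by
  classical
  have hc : ∀ σ d e, T.Rel σ d e → A d → ¬ A e → S σ d := by
    intro σ d e hr h1 h2
    rcases hAS σ d h1 hr.1 with h3 | h3
    · exact absurd (hLA σ e (hL σ d e hr h3)) h2
    · exact h3
  refine le_trans ?_ (orth_le T hP hτ h hg hA S hS hc)
  rw [← sum_tot T hP hτ (rs_rot h hA) (rs_good hg A), ← Finset.sum_sub_distrib]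
  apply Finset.sum_le_sum
  intro σ _
  have e1 := (hL σ).tot_split (rs A Θ)
  rw [rs_rs Θ (hLA σ)] at e1
  have e2 : tot T σ (rs (fun d => ¬ L σ d) (rs A Θ)) ≤ tot T σ (rs (S σ) (rs A Θ)) := by
    have e3 := (hS σ).tot_split (rs (fun d => ¬ L σ d) (rs A Θ))
    have e4 : tot T σ (rs (fun d => ¬ S σ d) (rs (fun d => ¬ L σ d) (rs A Θ))) = 0 := by
      rw [tot_eq]
      apply Finset.sum_eq_zero
      intro d _
      have : T.cls σ d (rs (fun d => ¬ S σ d) (rs (fun d => ¬ L σ d) (rs A Θ))) = 0 := by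
        unfold Tri.cls
        apply Finset.sum_eq_zero
        intro e _
        split_ifs with hr
        · unfold rs
          by_cases h1 : S σ e
          · simp [h1]
          · by_cases h2 : L σ e
            · simp [h2]
            · by_cases h3 : A e
              · exact absurd (hAS σ e h3 hr.1) (by tauto)
              · simp [h3]
        · rfl
      rw [this]; simp
    have e5 := ((hL σ).not).tot_split (rs (S σ) (rs A Θ))
    rw [rs_comm (fun d => ¬ L σ d) (S σ) (rs A Θ)] at e5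
    have e6 := tot_nonneg T σ (rs (fun d => ¬ ¬ L σ d) (rs (S σ) (rs A Θ)))
    linarith
  linarith

end energy

end Vale.Agent.P148.R2.H910
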