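import Vale.Agent.P148.R2.H258.A5
import Vale.Agent.P148.R2.H910.Orth

/-!
# Abstract bookkeeping for the middle assembly (P148, row OMEGA)

* invariance under the global colour flip;
* energies of unions of families of classes;
* the classes through a frozen vertex `O` are indexed by their darts with source `O`.
-/

set_option linter.unusedSectionVars false

open Function ComplexConjugate

namespace Vale.Agent.P148.R2.H910

open H258 H203

variable {V D : Type*} (T : Tri V D)

/-! ### the global flip -/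

/-- The flipped colouring. -/
def neg (σ : V → Bool) : V → Bool := fun v => !σ v

theorem neg_neg (σ : V → Bool) : neg (neg σ) = σ := by
  funext v; simp [neg]

theorem neg_eq_iff (σ : V → Bool) (u v : V) : neg σ u = neg σ v ↔ σ u = σ v := by
  unfold neg
  cases σ u <;> cases σ v <;> simp

theorem bi_neg (σ : V → Bool) (d : D) : T.Bi (neg σ) d ↔ T.Bi σ d := by
  unfold Tri.Bi
  rw [Ne, Ne, neg_eq_iff]

theorem mi_neg (σ : V → Bool) (d : D) : T.Mi (neg σ) d ↔ T.Mi σ d := by
  unfold Tri.Mi
  rw [Ne, Ne, neg_eq_iff, neg_eq_iff]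

theorem st_neg (σ : V → Bool) : T.st (neg σ) = T.st σ := by
  funext d
  unfold Tri.st
  simp only [neg_eq_iff]

theorem rel_neg (σ : V → Bool) (d e : D) : T.Rel (neg σ) d e ↔ T.Rel σ d e := by
  unfold Tri.Rel Tri.Disj
  rw [mi_neg, mi_neg, st_neg]

theorem tot_neg [Fintype D] (σ : V → Bool) (Θ : D → ℂ) : tot T (neg σ) Θ = tot T σ Θ := by
  classical
  unfold tot
  simp only [rel_neg]

theorem sat_neg [Fintype D] {σ : V → Bool} {S : D → Prop} : Sat T (neg σ) S ↔ Sat T σ S := by
  unfold Sat
  simp only [rel_neg]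

/-- The flip as a permutation of the colourings. -/
def negEquiv : (V → Bool) ≃ (V → Bool) where
  toFun := neg
  invFun := neg
  left_inv := neg_neg
  right_inv := neg_neg

open Classical in
/-- A flip invariant function has the same sum over the colourings with `O` black and over those
with `O` white. -/
theorem sum_eq_two_mul {M : Type*} [CommSemiring M] [Fintype V] (O : V) (f : (V → Bool) → M)
    (hf : ∀ σ, f (neg σ) = f σ) :
    ∑ σ : V → Bool, f σ = 2 * ∑ σ : V → Bool, if σ O = true then f σ else 0 := by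
  have h1 : ∑ σ : V → Bool, f σ = ∑ σ : V → Bool, (if σ O = true then f σ else 0) +
      ∑ σ : V → Bool, (if σ O = true then 0 else f σ) := by
    rw [← Finset.sum_add_distrib]
    apply Finset.sum_congr rfl
    intro σ _
    split_ifs <;> simp
  have h2 : ∑ σ : V → Bool, (if σ O = true then 0 else f σ) =
      ∑ σ : V → Bool, (if σ O = true then f σ else 0) := by
    rw [← Equiv.sum_comp negEquiv]
    apply Finset.sum_congr rfl
    intro σ _
    have : negEquiv σ = neg σ := rfl
    rw [this, hf]
    have h3 : neg σ O = !σ O := rfl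
    rw [h3]
    cases σ O <;> simp
  rw [h1, h2, two_mul]

/-! ### unions of families -/

section fixed

variable [Fintype D] {σ : V → Bool}

variable {T}

/-- Monotonicity in the family of classes. -/
theorem tot_rs_mono {S S' : D → Prop} (hS : Sat T σ S) (hS' : Sat T σ S')
    (h : ∀ d, S d → T.Mi σ d → S' d) (Θ : D → ℂ) : tot T σ (rs S Θ) ≤ tot T σ (rs S' Θ) := by
  rw [tot_eq, tot_eq]
  apply Finset.sum_le_sum
  intro d _
  apply div_le_div_of_nonneg_right _ (ncl_nonneg T σ d)
  by_cases hd : S d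
  · by_cases hm : T.Mi σ d
    · rw [hS.cls_rs Θ hd, hS'.cls_rs Θ (h d hd hm)]
    · have : T.cls σ d (rs S Θ) = 0 := by
        classical
        unfold Tri.cls
        apply Finset.sum_eq_zero
        intro e _
        rw [if_neg]
        exact fun hr => hm hr.2.1
      rw [this]
      simp
  · rw [hS.cls_rs' Θ hd]
    simp

/-- A family covered by finitely many families. -/
theorem tot_rs_le_sum {ι : Type*} (s : Finset ι) {S : D → Prop} {S' : ι → D → Prop}
    (hS : Sat T σ S) (hS' : ∀ i ∈ s, Sat T σ (S' i))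
    (h : ∀ d, S d → T.Mi σ d → ∃ i ∈ s, S' i d) (Θ : D → ℂ) :
    tot T σ (rs S Θ) ≤ ∑ i ∈ s, tot T σ (rs (S' i) Θ) := by
  simp_rw [tot_eq]
  rw [Finset.sum_comm]
  apply Finset.sum_le_sum
  intro d _
  have hnn : ∀ i ∈ s, 0 ≤ ‖T.cls σ d (rs (S' i) Θ)‖ ^ 2 / ncl T σ d := fun i _ =>
    div_nonneg (by positivity) (ncl_nonneg T σ d)
  by_cases hd : S d
  · by_cases hm : T.Mi σ d
    · obtain ⟨i, hi, hi'⟩ := h d hd hm
      rw [hS.cls_rs Θ hd, ← (hS' i hi).cls_rs Θ hi']
      exact Finset.single_le_sum hnn hi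
    · have : T.cls σ d (rs S Θ) = 0 := by
        classical
        unfold Tri.cls
        apply Finset.sum_eq_zero
        intro e _
        rw [if_neg]
        exact fun hr => hm hr.2.1
      rw [this]
      simp only [norm_zero, ne_eq, OfNat.ofNat_ne_zero, not_false_eq_true, zero_pow, zero_div]
      exact Finset.sum_nonneg hnn
  · rw [hS.cls_rs' Θ hd]
    simp only [norm_zero, ne_eq, OfNat.ofNat_ne_zero, not_false_eq_true, zero_pow, zero_div]
    exact Finset.sum_nonneg hnn

/-- Two families. -/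
theorem tot_rs_or_le {S S₁ S₂ : D → Prop} (hS : Sat T σ S) (h1 : Sat T σ S₁) (h2 : Sat T σ S₂)
    (h : ∀ d, S d → T.Mi σ d → S₁ d ∨ S₂ d) (Θ : D → ℂ) :
    tot T σ (rs S Θ) ≤ tot T σ (rs S₁ Θ) + tot T σ (rs S₂ Θ) := by
  have := tot_rs_le_sum (T := T) (σ := σ) (Finset.univ : Finset Bool)
    (S := S) (S' := fun i => if i then S₁ else S₂) hS
    (by intro i _; cases i <;> simp [h1, h2])
    (by
      intro d hd hm
      rcases h d hd hm with h3 | h3
      · exact ⟨true, Finset.mem_univ _, by simpa using h3⟩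
      · exact ⟨false, Finset.mem_univ _, by simpa using h3⟩) Θ
  simpa using this

/-! ### representatives -/

/-- If every class of the family with a nonzero value has exactly one member satisfying `R`, the
energy is the sum over these members. -/
theorem tot_rs_eq_sum {S R : D → Prop} (hS : Sat T σ S) (Θ : D → ℂ)
    (hex : ∀ d, S d → T.Mi σ d → T.cls σ d Θ ≠ 0 → ∃ e, T.Rel σ d e ∧ R e)
    (huni : ∀ d e, S d → R d → R e → T.Rel σ d e → d = e) :
    tot T σ (rs S Θ) = ∑ d, (open Classical in if S d ∧ R d ∧ T.Mi σ d then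
      ‖T.cls σ d Θ‖ ^ 2 else 0) := by
  classical
  rw [tot_eq]
  have e1 : ∀ d, ‖T.cls σ d (rs S Θ)‖ ^ 2 / ncl T σ d =
      ∑ e, (if T.Rel σ d e ∧ R e ∧ S d then ‖T.cls σ d Θ‖ ^ 2 / ncl T σ d else 0) := by
    intro d
    by_cases hd : S d
    · rw [hS.cls_rs Θ hd]
      by_cases hm : T.Mi σ d
      · by_cases h0 : T.cls σ d Θ = 0
        · simp [h0]
        · obtain ⟨e, he, hR⟩ := hex d hd hm h0
          rw [Finset.sum_eq_single e]
          · rw [if_pos ⟨he, hR, hd⟩]
          · intro f _ hf
            rw [if_neg]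
            rintro ⟨h1, h2, -⟩
            exact hf ((huni e f (hS d e he hd) hR h2 (T.rel_trans (T.rel_symm he) h1)).symm)
          · intro h; exact absurd (Finset.mem_univ e) h
      · have : T.cls σ d Θ = 0 := by
          unfold Tri.cls
          apply Finset.sum_eq_zero
          intro e _
          rw [if_neg]
          exact fun hr => hm hr.2.1
        simp [this]
    · rw [hS.cls_rs' Θ hd]
      symm
      simp [hd]
  rw [Finset.sum_congr rfl (fun d _ => e1 d), Finset.sum_comm]
  apply Finset.sum_congr rfl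
  intro e _
  by_cases he : S e ∧ R e ∧ T.Mi σ e
  · rw [if_pos he]
    have e2 : ∀ d, (if T.Rel σ d e ∧ R e ∧ S d then ‖T.cls σ d Θ‖ ^ 2 / ncl T σ d else 0) =
        (if T.Rel σ d e then (1 : ℝ) else 0) * (‖T.cls σ e Θ‖ ^ 2 / ncl T σ e) := by
      intro d
      by_cases hr : T.Rel σ d e
      · have hd : S d := (hS.iff hr).2 he.1
        rw [if_pos ⟨hr, he.2.1, hd⟩, if_pos hr, cls_congr T σ hr, ncl_congr T σ hr, one_mul]
      · rw [if_neg (fun h => hr h.1), if_neg hr, zero_mul]
    rw [Finset.sum_congr rfl (fun d _ => e2 d), ← Finset.sum_mul]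
    have hn : 0 < ncl T σ e := ncl_pos T σ (T.rel_refl he.2.2)
    change ncl T σ e * _ = _
    rw [mul_div_assoc', mul_comm (ncl T σ e), mul_div_assoc, div_self hn.ne', mul_one]
  · rw [if_neg he]
    apply Finset.sum_eq_zero
    intro d _
    rw [if_neg]
    rintro ⟨hr, hR, hd⟩
    exact he ⟨(hS.iff hr).1 hd, hR, hr.2.1⟩

end fixed

/-! ### classes through a vertex -/

section thr

variable [Fintype D]

/-- The class of `d` has a member with source `O` (the majority vertex). -/
def Thr (O : V) (σ : V → Bool) (d : D) : Prop := ∃ e, T.Rel σ d e ∧ T.src e = O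

theorem thr_sat (O : V) (σ : V → Bool) : Sat T σ (Thr T O σ) := by
  rintro d e hr ⟨f, h1, h2⟩
  exact ⟨f, T.rel_trans (T.rel_symm hr) h1, h2⟩

/-- A degenerate member of a class is alone. -/
theorem rel_degenerate {σ : V → Bool} {d e : D} (h : T.apex d = T.src d) (hr : T.Rel σ d e) :
    e = d := by
  obtain ⟨h1, h2, n, hn, he, hD⟩ := hr
  rcases Nat.eq_zero_or_pos n with h0 | h0
  · subst h0; exact he.symm
  · exfalso
    apply hD 1 (minimalPeriod (T.st σ) d) le_rfl h0 hn le_rfl
    rw [iterate_minimalPeriod, iterate_one, T.src_st_mi h1, h]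

/-- At most one member of a class has a given source. -/
theorem rel_src_inj (hP : T.Planar) {σ : V → Bool} {d e : D} (hr : T.Rel σ d e)
    (hs : T.src d = T.src e) : d = e := by
  by_cases hd : T.apex d = T.src d
  · exact (rel_degenerate T hd hr).symm
  · obtain ⟨m, f, h1, h2, h3, h4, h5, h6, -⟩ := T.class_cycle hP hr.1 hd
    obtain ⟨i, hi, rfl⟩ := (h6 e).1 hr
    obtain ⟨k, hk, h7⟩ := (h6 d).1 (T.rel_refl hr.1)
    have := h5 k hk i hi (by rw [← h7, hs])
    rw [h7, this]

open Classical in
/-- **The classes through `O` are indexed by their darts with source `O`.** -/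
theorem tot_thr (hP : T.Planar) (O : V) {σ : V → Bool} {S : D → Prop} (hS : Sat T σ S)
    (hSO : ∀ d, S d → T.Mi σ d → Thr T O σ d) (Θ : D → ℂ) :
    tot T σ (rs S Θ) = ∑ d, if S d ∧ T.src d = O ∧ T.Mi σ d then ‖T.cls σ d Θ‖ ^ 2 else 0 :=
  tot_rs_eq_sum (R := fun d => T.src d = O) hS Θ (fun d h1 h2 _ => hSO d h1 h2)
    (fun _ _ _ h2 h3 hr => rel_src_inj T hP hr (h2.trans h3.symm))

end thr

end Vale.Agent.P148.R2.H910
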