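import Vale.Agent.P148.R2.H144.T3b
import Vale.Agent.P148.R2.H291.Tot

/-!
# Annealed assembly (P148, row OMEGA, part 3)

* calculus of the quenched averages `avg`: composition, sums, monotonicity;
* `annealed`: if, for almost every configuration and every recolouring `T` of it in the window `W`,
  the energy of `A` is at most four times the quenched mean energy of the local loops of `A` plus a
  remainder `X T`, and if the remainder is small in mean under a density `D` which does not look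
  at `A`, then the missing energy of `A` is small.
-/

set_option linter.unusedSectionVars false

open MeasureTheory Set Metric Topology Filter ProbabilityTheory
open scoped ENNReal NNReal symmDiff

namespace Vale.Agent.P148.R2.H910

open H592 H184 H144 _root_.P148 _root_.P148.H729

/-! ### calculus of quenched averages -/

theorem flipOn_flipOn (U U' : Set ℂ) (q : Pt) : flipOn U (flipOn U' q) = flipOn (U ∆ U') q := by
  unfold flipOn
  by_cases h1 : q.1 ∈ U <;> by_cases h2 : q.1 ∈ U' <;> simp [h1, h2, Set.mem_symmDiff]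

theorem flipOn_image_image (U U' : Set ℂ) (T : Set Pt) :
    flipOn U '' (flipOn U' '' T) = flipOn (U ∆ U') '' T := by
  rw [image_image]
  exact image_congr fun q _ => flipOn_flipOn U U' q

theorem flipOn_empty (T : Set Pt) : flipOn ∅ '' T = T := by
  have : flipOn (∅ : Set ℂ) = id := by
    funext q
    unfold flipOn
    simp
  rw [this, image_id]

/-- Monotonicity, along the recolourings of one configuration. -/
theorem avg_mono_of {B : Set ℂ} {F G : Set Pt → ℝ≥0∞} {T : Set Pt}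
    (h : ∀ U : Set ℂ, U ⊆ pts T ∩ B → F (flipOn U '' T) ≤ G (flipOn U '' T)) :
    avg B F T ≤ avg B G T := by
  unfold avg recolSum
  split_ifs with hf
  · gcongr with U hU
    apply h
    intro z hz
    exact hf.mem_toFinset.1 (Finset.mem_powerset.1 hU hz)
  · exact le_rfl

theorem avg_congr_of {B : Set ℂ} {F G : Set Pt → ℝ≥0∞} {T : Set Pt}
    (h : ∀ U : Set ℂ, U ⊆ pts T ∩ B → F (flipOn U '' T) = G (flipOn U '' T)) :
    avg B F T = avg B G T :=
  le_antisymm (avg_mono_of fun U hU => (h U hU).le) (avg_mono_of fun U hU => (h U hU).ge)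

theorem avg_add (B : Set ℂ) (F G : Set Pt → ℝ≥0∞) (T : Set Pt) :
    avg B (fun T => F T + G T) T = avg B F T + avg B G T := by
  unfold avg recolSum
  split_ifs
  · rw [Finset.sum_add_distrib, mul_add]
  · simp

theorem avg_const_mul (B : Set ℂ) (c : ℝ≥0∞) (F : Set Pt → ℝ≥0∞) (T : Set Pt) :
    avg B (fun T => c * F T) T = c * avg B F T := by
  unfold avg recolSum
  split_ifs
  · rw [← Finset.mul_sum, mul_left_comm]
  · simp

/-- A factor which does not see the recolouring comes out. -/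
theorem avg_mul_left {B : Set ℂ} {D : Set Pt → ℝ≥0∞} {T : Set Pt}
    (hD : ∀ U : Set ℂ, U ⊆ pts T ∩ B → D (flipOn U '' T) = D T) (F : Set Pt → ℝ≥0∞) :
    avg B (fun T => D T * F T) T = D T * avg B F T := by
  rw [← avg_const_mul]
  exact avg_congr_of fun U hU => by rw [hD U hU]

open Classical in
/-- The colour flips of a finite set of points act on the recolourings. -/
theorem sum_symmDiff {M : Type*} [AddCommMonoid M] {V : Finset ℂ} {U : Finset ℂ} (hU : U ⊆ V)
    (f : Set ℂ → M) :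
    ∑ W ∈ V.powerset, f ((U : Set ℂ) ∆ (W : Set ℂ)) = ∑ W ∈ V.powerset, f (W : Set ℂ) := by
  refine Finset.sum_nbij' (fun W => U ∆ W) (fun W => U ∆ W) ?_ ?_ ?_ ?_ ?_
  · intro W hW
    rw [Finset.mem_powerset] at hW ⊢
    intro z hz
    rcases Finset.mem_symmDiff.1 hz with h | h
    · exact hU h.1
    · exact hW h.1
  · intro W hW
    rw [Finset.mem_powerset] at hW ⊢
    intro z hz
    rcases Finset.mem_symmDiff.1 hz with h | h
    · exact hU h.1
    · exact hW h.1
  · intro W _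
    exact symmDiff_symmDiff_cancel_left U W
  · intro W _
    exact symmDiff_symmDiff_cancel_left U W
  · intro W _
    rw [Finset.coe_symmDiff]

/-- **Composition of quenched averages.** -/
theorem avg_avg {A W : Set ℂ} (hAW : A ⊆ W) {T : Set Pt} (hT : (pts T ∩ W).Finite)
    (F : Set Pt → ℝ≥0∞) : avg W (fun T => avg A F T) T = avg W F T := by
  classical
  have hTA : (pts T ∩ A).Finite := hT.subset (inter_subset_inter_right _ hAW)
  have hsub : hTA.toFinset ⊆ hT.toFinset := by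
    intro z hz
    rw [Set.Finite.mem_toFinset] at hz ⊢
    exact ⟨hz.1, hAW hz.2⟩
  have h1 : ∀ U : Set ℂ, avg A F (flipOn U '' T) = (2 ^ (pts T ∩ A).ncard)⁻¹ *
      ∑ U' ∈ hTA.toFinset.powerset, F (flipOn ((U' : Set ℂ) ∆ U) '' T) := by
    intro U
    unfold avg recolSum
    have e : pts (flipOn U '' T) = pts T := H291.pts_flipOn U T
    have hf : (pts (flipOn U '' T) ∩ A).Finite := by rw [e]; exact hTA
    have e' : (pts (flipOn U '' T) ∩ A).ncard = (pts T ∩ A).ncard := by rw [e]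
    have e'' : hf.toFinset = hTA.toFinset := by
      ext z
      rw [Set.Finite.mem_toFinset, Set.Finite.mem_toFinset, e]
    rw [dif_pos hf, e', e'']
    congr 1
    refine Finset.sum_congr rfl fun U' _ => ?_
    rw [flipOn_image_image]
  have h2 : recolSum W (fun T => avg A F T) T = recolSum W F T := by
    unfold recolSum
    rw [dif_pos hT, dif_pos hT]
    calc ∑ U ∈ hT.toFinset.powerset, avg A F (flipOn (U : Set ℂ) '' T)
        = (2 ^ (pts T ∩ A).ncard)⁻¹ * ∑ U' ∈ hTA.toFinset.powerset,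
          ∑ U ∈ hT.toFinset.powerset, F (flipOn ((U' : Set ℂ) ∆ (U : Set ℂ)) '' T) := by
          rw [Finset.sum_comm, Finset.mul_sum]
          refine Finset.sum_congr rfl fun U _ => ?_
          exact h1 (U : Set ℂ)
      _ = (2 ^ (pts T ∩ A).ncard)⁻¹ * ∑ U' ∈ hTA.toFinset.powerset,
          ∑ U ∈ hT.toFinset.powerset, F (flipOn (U : Set ℂ) '' T) := by
          congr 1
          refine Finset.sum_congr rfl fun U' hU' => ?_
          exact sum_symmDiff ((Finset.mem_powerset.1 hU').trans hsub)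
            (fun U => F (flipOn U '' T))
      _ = _ := by
          rw [Finset.sum_const, Finset.card_powerset, nsmul_eq_mul,
            ← Set.ncard_eq_toFinset_card _ hTA]
          push_cast
          rw [← mul_assoc, ENNReal.inv_mul_cancel (by simp) (by simp), one_mul]
  unfold avg at h2 ⊢
  rw [h2]

section

theorem measurable_mul_aux {Y : Type*} {mY : MeasurableSpace Y} {F G : Y → ℝ≥0∞}
    (hF : Measurable F) (hG : Measurable G) : Measurable fun y => F y * G y := hF.mul hG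

variable {Ω : Type*} [MeasurableSpace Ω] {P : Measure Ω} {S : Ω → Set Pt} {lam : ℝ≥0}

/-- **Annealed assembly.** `D` is a density which is blind to the colours in `A` and under which
the functions of the points in `A` keep their mean; for almost every configuration the quenched
inequality with remainder `X T` holds for every recolouring `T` in the window `W` with `D T ≠ 0`;
the remainder is at most `ε` in (upper) mean. Then the missing energy of `A` is at most `ε`. -/
theorem annealed [IsProbabilityMeasure P] (h : IsColouredPoisson P S lam)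
    {A W : Set ℂ} (hA : IsOpen A) (hb : Bornology.IsBounded A)
    (hWm : MeasurableSet W) (hWb : Bornology.IsBounded W) (hAW : A ⊆ W)
    {Θ : Dt → ℂ} (hΘ : Measurable Θ) {D : Set Pt → ℝ≥0∞} (hDm : @Measurable _ _ voidSigma _ D)
    (hDA : ∀ (T : Set Pt) (U : Set ℂ), U ⊆ A → D (flipOn U '' T) = D T)
    (hD : ∀ f : Set Pt → ℝ≥0∞, @Measurable _ _ voidSigma _ f →
      (∀ T, f (T ∩ A ×ˢ univ) = f T) → ∫⁻ ω, D (S ω) * f (S ω) ∂P = ∫⁻ ω, f (S ω) ∂P)
    {X : Set Pt → ℝ≥0∞} {ε : ℝ≥0∞}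
    (hX : ∀ᵐ ω ∂P, ∀ U : Set ℂ, U ⊆ pts (S ω) ∩ W → D (flipOn U '' S ω) ≠ 0 →
      EQ (pts (S ω)) A Θ ≤ 4 * avg A (SC A Θ) (flipOn U '' S ω) + X (flipOn U '' S ω))
    (hU : ∃ g : Ω → ℝ≥0∞, Measurable g ∧
      (∀ᵐ ω ∂P, avg W (fun T => D T * X T) (S ω) ≤ g ω) ∧ ∫⁻ ω, g ω ∂P ≤ ε) :
    ∫⁻ ω, EQ (pts (S ω)) A Θ ∂P ≤ 4 * ∫⁻ ω, SC A Θ (S ω) ∂P + ε := by
  obtain ⟨g, hg, hgX, hgε⟩ := hU
  have hfin : ∀ ω, (S ω ∩ A ×ˢ univ).Finite := by
    intro ω
    obtain ⟨r, hr⟩ := hb.subset_ball 0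
    exact (h.locFin ω r).subset (inter_subset_inter_right _ (prod_mono hr subset_rfl))
  have hECm := measurable_EC hA hb hΘ
  have hSCm := measurable_SC hA hb hΘ
  have hEC : ∀ ω, EQ (pts (S ω)) A Θ = EC A Θ (S ω) := fun ω => (EC_eq Θ (hfin ω)).symm
  have hECl : ∀ T, EC A Θ (T ∩ A ×ˢ univ) = EC A Θ T := by
    intro T
    unfold EC
    rw [inter_assoc, inter_self]
  have hSCl : ∀ T, SC A Θ (T ∩ A ×ˢ univ) = SC A Θ T := by
    intro T
    unfold SC
    rw [inter_assoc, inter_self]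
  have hDEC : @Measurable _ _ voidSigma _ (fun T => D T * EC A Θ T) :=
    @measurable_mul_aux _ voidSigma _ _ hDm hECm
  have hDSC : @Measurable _ _ voidSigma _ (fun T => D T * SC A Θ T) :=
    @measurable_mul_aux _ voidSigma _ _ hDm hSCm
  calc ∫⁻ ω, EQ (pts (S ω)) A Θ ∂P = ∫⁻ ω, EC A Θ (S ω) ∂P := lintegral_congr hEC
    _ = ∫⁻ ω, D (S ω) * EC A Θ (S ω) ∂P := (hD _ hECm hECl).symm
    _ = ∫⁻ ω, avg W (fun T => D T * EC A Θ T) (S ω) ∂P := (lintegral_avg h hWm hWb hDEC).symm
    _ ≤ ∫⁻ ω, (4 * avg W (fun T => D T * SC A Θ T) (S ω) + g ω) ∂P := by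
        refine lintegral_mono_ae ?_
        filter_upwards [hX, hgX] with ω h1 h2
        have hWfin := finite_pts h hWb ω
        have e1 : avg W (fun T => D T * EC A Θ T) (S ω) ≤
            avg W (fun T => 4 * avg A (fun T => D T * SC A Θ T) T + D T * X T) (S ω) := by
          refine avg_mono_of fun U hU => ?_
          have e2 : avg A (fun T => D T * SC A Θ T) (flipOn U '' S ω) =
              D (flipOn U '' S ω) * avg A (SC A Θ) (flipOn U '' S ω) :=
            avg_mul_left (fun U' hU' => hDA _ _ (hU'.trans inter_subset_right)) _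
          rw [e2]
          have e3 : EC A Θ (flipOn U '' S ω) = EQ (pts (S ω)) A Θ := by
            rw [EC_eq, H291.pts_flipOn]
            have : flipOn U '' S ω ∩ A ×ˢ univ ⊆ flipOn U '' (S ω ∩ A ×ˢ univ) := by
              rintro _ ⟨⟨q, hq, rfl⟩, hq2⟩
              exact ⟨q, ⟨hq, hq2.1, mem_univ _⟩, rfl⟩
            exact ((hfin ω).image _).subset this
          rw [e3, mul_left_comm, ← mul_add]
          by_cases h0 : D (flipOn U '' S ω) = 0
          · rw [h0, zero_mul]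
            exact zero_le
          · gcongr
            exact h1 U hU h0
        refine e1.trans ?_
        rw [avg_add, avg_const_mul, avg_avg hAW hWfin]
        gcongr
    _ = 4 * ∫⁻ ω, SC A Θ (S ω) ∂P + ∫⁻ ω, g ω ∂P := by
        rw [lintegral_add_right _ hg,
          lintegral_const_mul _ (measurable_avg h hWm hWb hDSC),
          lintegral_avg h hWm hWb hDSC, hD _ hSCm hSCl]
    _ ≤ _ := by gcongr

/-- The quenched average of a function of the window does not see the colours. -/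
theorem avg_blind {A : Set ℂ} {F : Set Pt → ℝ≥0∞} (hF : ∀ T, F (T ∩ A ×ˢ univ) = F T)
    (U : Set ℂ) {T : Set Pt} (hT : (pts T ∩ A).Finite) :
    avg A F (flipOn U '' T) = avg A F T := by
  classical
  set U₀ : Finset ℂ := hT.toFinset.filter fun z => z ∈ U with hU₀
  have hsub : U₀ ⊆ hT.toFinset := Finset.filter_subset _ _
  have e : pts (flipOn U '' T) = pts T := H291.pts_flipOn U T
  have hf : (pts (flipOn U '' T) ∩ A).Finite := by rw [e]; exact hT
  have e' : (pts (flipOn U '' T) ∩ A).ncard = (pts T ∩ A).ncard := by rw [e]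
  have e'' : hf.toFinset = hT.toFinset := by
    ext z
    rw [Set.Finite.mem_toFinset, Set.Finite.mem_toFinset, e]
  unfold avg recolSum
  rw [dif_pos hf, dif_pos hT, e', e'', ← sum_symmDiff hsub (fun V => F (flipOn V '' T))]
  congr 1
  refine Finset.sum_congr rfl fun V _ => ?_
  rw [← hF (flipOn (V : Set ℂ) '' (flipOn U '' T)), ← hF (flipOn ((U₀ : Set ℂ) ∆ (V : Set ℂ)) '' T),
    flipOn_image_image]
  congr 1
  ext q
  constructor
  · rintro ⟨⟨q', hq', rfl⟩, hq2⟩
    refine ⟨⟨q', hq', ?_⟩, hq2⟩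
    have hA : q'.1 ∈ A := hq2.1
    have hm : q'.1 ∈ U₀ ↔ q'.1 ∈ U := by
      rw [hU₀, Finset.mem_filter, Set.Finite.mem_toFinset]
      exact ⟨fun h => h.2, fun h => ⟨⟨⟨q', hq', rfl⟩, hA⟩, h⟩⟩
    unfold flipOn
    congr 1
    by_cases h1 : q'.1 ∈ U <;> by_cases h2 : q'.1 ∈ (V : Set ℂ) <;>
      simp [Set.mem_symmDiff, h1, h2, hm]
  · rintro ⟨⟨q', hq', rfl⟩, hq2⟩
    refine ⟨⟨q', hq', ?_⟩, hq2⟩
    have hA : q'.1 ∈ A := hq2.1
    have hm : q'.1 ∈ U₀ ↔ q'.1 ∈ U := by
      rw [hU₀, Finset.mem_filter, Set.Finite.mem_toFinset]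
      exact ⟨fun h => h.2, fun h => ⟨⟨⟨q', hq', rfl⟩, hA⟩, h⟩⟩
    unfold flipOn
    congr 1
    by_cases h1 : q'.1 ∈ U <;> by_cases h2 : q'.1 ∈ (V : Set ℂ) <;>
      simp [Set.mem_symmDiff, h1, h2, hm]

theorem SC_window (A : Set ℂ) (Θ : Dt → ℂ) (T : Set Pt) : SC A Θ (T ∩ A ×ˢ univ) = SC A Θ T := by
  unfold SC
  rw [inter_assoc, inter_self]

/-- The quenched missing energy does not see the colours. -/
theorem ms_blind {A : Set ℂ} (Θ : Dt → ℂ) (U : Set ℂ) {T : Set Pt} (hT : (pts T ∩ A).Finite) :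
    ms A Θ (flipOn U '' T) = ms A Θ T := by
  unfold ms
  rw [avg_blind (SC_window A Θ) U hT, H291.pts_flipOn]

/-- **Annealed assembly, quenched law.** `D` is a density on the colourings, `G` a good event on
which it has quenched mean (at least) one. -/
theorem annealed_ms [IsProbabilityMeasure P] (h : IsColouredPoisson P S lam)
    {A W : Set ℂ} (hA : IsOpen A) (hb : Bornology.IsBounded A)
    {τ : ℂ} (hτ : τ ^ 2 + τ + 1 = 0) {Θ : Dt → ℂ} (hΘr : ∀ d, Θ (rt d) = τ ^ 2 * Θ d)
    (hΘ : Measurable Θ) {D : Set Pt → ℝ≥0∞} {G : Set Ω}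
    (hG : ∀ᵐ ω ∂P, ω ∈ G → 1 ≤ avg W D (S ω)) {X : Set Pt → ℝ≥0∞} {ε ε' : ℝ≥0∞}
    (hX : ∀ᵐ ω ∂P, ω ∈ G → ∀ U : Set ℂ, U ⊆ pts (S ω) ∩ W → D (flipOn U '' S ω) ≠ 0 →
      ms A Θ (flipOn U '' S ω) ≤ X (flipOn U '' S ω))
    (hU : ∃ g : Ω → ℝ≥0∞, Measurable g ∧
      (∀ᵐ ω ∂P, avg W (fun T => D T * X T) (S ω) ≤ g ω) ∧ ∫⁻ ω, g ω ∂P ≤ ε)
    (hGc : ∫⁻ ω in Gᶜ, EQ (pts (S ω)) A Θ ∂P ≤ ε') :
    ∫⁻ ω, EQ (pts (S ω)) A Θ ∂P ≤ 4 * ∫⁻ ω, SC A Θ (S ω) ∂P + (ε + ε') := by
  obtain ⟨g, hg, hgX, hgε⟩ := hU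
  rw [← lintegral_ms h hA hb hτ hΘr hΘ, add_comm]
  gcongr
  have h1 : ∫⁻ ω in G, ms A Θ (S ω) ∂P ≤ ε := by
    refine le_trans (setLIntegral_mono_ae hg.aemeasurable ?_)
      ((setLIntegral_le_lintegral G g).trans hgε)
    filter_upwards [hG, hX, hgX] with ω h1 h2 h3 hω
    refine le_trans ?_ h3
    have hf : (pts (S ω) ∩ A).Finite := finite_pts h hb ω
    calc ms A Θ (S ω) ≤ ms A Θ (S ω) * avg W D (S ω) := le_mul_of_one_le_right' (h1 hω)
      _ = avg W (fun T => ms A Θ (S ω) * D T) (S ω) := (avg_const_mul _ _ _ _).symm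
      _ ≤ avg W (fun T => D T * X T) (S ω) := by
          refine avg_mono_of fun U hU => ?_
          by_cases h0 : D (flipOn U '' S ω) = 0
          · rw [h0, mul_zero]
            exact zero_le
          · rw [mul_comm]
            gcongr
            rw [← ms_blind Θ U hf]
            exact h2 hω U hU h0
  have h2 : ∫⁻ ω in Gᶜ, ms A Θ (S ω) ∂P ≤ ε' :=
    (lintegral_mono fun ω => tsub_le_self).trans hGc
  calc ∫⁻ ω, ms A Θ (S ω) ∂P = ∫⁻ ω in G ∪ Gᶜ, ms A Θ (S ω) ∂P := by
        rw [Set.union_compl_self, Measure.restrict_univ]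
    _ ≤ ∫⁻ ω in G, ms A Θ (S ω) ∂P + ∫⁻ ω in Gᶜ, ms A Θ (S ω) ∂P := lintegral_union_le _ _ _
    _ ≤ ε + ε' := add_le_add h1 h2

end

end Vale.Agent.P148.R2.H910
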