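import Vale.Agent.P148.R2.H184.PC5
import Vale.Agent.P148.R2.H566.UB
import Vale.Agent.P148.R2.H598.Dict
import Vale.Agent.P148.R2.H838.Law
import Vale.Agent.P148.R2.H910.Inst
import Vale.Agent.P148.R2.H910.Om3

/-!
# Annealed comparison (P148, row ANN)

A quenched law on the colourings of the points of a window, with a density at most `C` with respect
to the fair colourings, turns a function of the recoloured configuration into at most `C` times its
quenched average, hence into at most `C` times its mean. Composite colourings: three colourings and a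
map with uniform image.
-/

set_option linter.unusedSectionVars false

open MeasureTheory Set Metric Topology Filter ProbabilityTheory
open scoped ENNReal NNReal symmDiff

namespace Vale.Agent.P148.R2.H910

open H592 H184 H144 H953 H598 _root_.P148.H729
open _root_.P148 hiding col

section fin

variable {N : Type*} [Fintype N]

open Classical in
/-- A law with a density at most `C` with respect to the fair colourings. -/
theorem sum_law_le (q F : (N → Bool) → ℝ≥0∞) {C : ℝ≥0∞}
    (hq : ∀ s, q s * 2 ^ Fintype.card N ≤ C) :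
    ∑ s, q s * F s ≤ C * ((2 ^ Fintype.card N)⁻¹ * ∑ s, F s) := by
  have h2 : ∀ s, q s ≤ C * (2 ^ Fintype.card N)⁻¹ := by
    intro s
    calc q s = q s * 2 ^ Fintype.card N * (2 ^ Fintype.card N)⁻¹ := by
          rw [mul_assoc, ENNReal.mul_inv_cancel (by simp) (by simp), mul_one]
      _ ≤ _ := by gcongr; exact hq s
  calc ∑ s, q s * F s ≤ ∑ s, C * (2 ^ Fintype.card N)⁻¹ * F s :=
        Finset.sum_le_sum fun s _ => by gcongr; exact h2 s
    _ = _ := by rw [← Finset.mul_sum, mul_assoc]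

/-- Composite colourings of three colourings with a uniform image. -/
def Unif3 (comp : (N → Bool) → (N → Bool) → (N → Bool) → (N → Bool)) : Prop :=
  ∀ g : (N → Bool) → ℝ, ex (fun c₁ => ex fun c₂ => ex fun c₃ => g (comp c₁ c₂ c₃)) = ex g

open Classical in
theorem ofReal_ex {f : (N → Bool) → ℝ} (hf : ∀ c, 0 ≤ f c) :
    ENNReal.ofReal (ex f) = (2 ^ Fintype.card N)⁻¹ * ∑ c, ENNReal.ofReal (f c) := by
  unfold ex
  rw [ENNReal.ofReal_div_of_pos (by positivity), ENNReal.div_eq_inv_mul,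
    ENNReal.ofReal_sum_of_nonneg (fun c _ => hf c), ENNReal.ofReal_pow (by norm_num),
    ENNReal.ofReal_ofNat]

theorem unif3_comp {H E : (N → Bool) → Set N} (hH : IsStop H) (hE : IsStop E) :
    Unif3 (H838.comp H E) := H838.comp_fair hH hE

theorem unif3_sgn {H E : (N → Bool) → Set N} (hH : IsStop H) (hE : IsStop E) (Sg : N → Prop) :
    Unif3 (H838.sgn H E Sg) := H838.sgn_fair hH hE Sg

/-- Mean over the colourings, extended nonnegative values. -/
noncomputable def exE (F : (N → Bool) → ℝ≥0∞) : ℝ≥0∞ :=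
  open Classical in (2 ^ Fintype.card N)⁻¹ * ∑ c, F c

theorem exE_eq [Fintype (N → Bool)] (G : (N → Bool) → ℝ≥0∞) :
    exE G = (2 ^ Fintype.card N)⁻¹ * ∑ c, G c := by
  unfold exE
  rw [sum_inst]

theorem exE_ofReal {f : (N → Bool) → ℝ} (hf : ∀ c, 0 ≤ f c) :
    exE (fun c => ENNReal.ofReal (f c)) = ENNReal.ofReal (ex f) := (ofReal_ex hf).symm

theorem exE_mono {F G : (N → Bool) → ℝ≥0∞} (h : ∀ c, F c ≤ G c) : exE F ≤ exE G := by
  classical
  unfold exE
  gcongr with c
  exact h c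

theorem exE_const_mul (a : ℝ≥0∞) (F : (N → Bool) → ℝ≥0∞) :
    exE (fun c => a * F c) = a * exE F := by
  classical
  unfold exE
  rw [← Finset.mul_sum, mul_left_comm]

theorem exE_add (F G : (N → Bool) → ℝ≥0∞) : exE (fun c => F c + G c) = exE F + exE G := by
  classical
  unfold exE
  rw [Finset.sum_add_distrib, mul_add]

theorem exE_const (a : ℝ≥0∞) : exE (fun _ : N → Bool => a) = a := by
  classical
  unfold exE
  rw [Finset.sum_const, Finset.card_univ, Fintype.card_fun, Fintype.card_bool, nsmul_eq_mul]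
  push_cast
  rw [← mul_assoc, ENNReal.inv_mul_cancel (by simp) (by simp), one_mul]

/-- The image of the three fair colourings is uniform: every colouring has the right number of
preimages. -/
theorem Unif3.count {comp : (N → Bool) → (N → Bool) → (N → Bool) → (N → Bool)} (h : Unif3 comp)
    (F : (N → Bool) → ℝ≥0∞) :
    exE (fun c₁ => exE fun c₂ => exE fun c₃ => F (comp c₁ c₂ c₃)) = exE F := by
  classical
  -- additive expansion of `F` over the values
  have key : ∀ s : N → Bool,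
      exE (fun c₁ => exE fun c₂ => exE fun c₃ => if comp c₁ c₂ c₃ = s then (1 : ℝ≥0∞) else 0) =
        exE fun c => if c = s then (1 : ℝ≥0∞) else 0 := by
    intro s
    have e0 : ∀ p : Prop, ∀ [Decidable p], (if p then (1 : ℝ≥0∞) else 0) =
        ENNReal.ofReal (if p then (1 : ℝ) else 0) := by
      intro p _
      split_ifs <;> simp
    have nn : ∀ p : Prop, ∀ [Decidable p], (0 : ℝ) ≤ if p then (1 : ℝ) else 0 := by
      intro p _
      split_ifs <;> norm_num
    have exnn : ∀ {f : (N → Bool) → ℝ}, (∀ c, 0 ≤ f c) → 0 ≤ ex f := by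
      intro f hf
      unfold ex
      exact div_nonneg (Finset.sum_nonneg fun c _ => hf c) (by positivity)
    simp_rw [e0]
    have e1 : ∀ c₁ c₂, exE (fun c₃ => ENNReal.ofReal (if comp c₁ c₂ c₃ = s then (1 : ℝ) else 0)) =
        ENNReal.ofReal (ex fun c₃ => if comp c₁ c₂ c₃ = s then (1 : ℝ) else 0) := fun c₁ c₂ =>
      exE_ofReal fun c => nn _
    simp_rw [e1]
    have e2 : ∀ c₁, exE (fun c₂ => ENNReal.ofReal
        (ex fun c₃ => if comp c₁ c₂ c₃ = s then (1 : ℝ) else 0)) =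
        ENNReal.ofReal (ex fun c₂ => ex fun c₃ => if comp c₁ c₂ c₃ = s then (1 : ℝ) else 0) :=
      fun c₁ => exE_ofReal fun c => exnn fun _ => nn _
    simp_rw [e2]
    rw [exE_ofReal (fun c => exnn fun _ => exnn fun _ => nn _), exE_ofReal (fun c => nn _)]
    congr 1
    exact h fun c => if c = s then 1 else 0
  have hexp : ∀ c : N → Bool, F c = ∑ s, F s * (if c = s then (1 : ℝ≥0∞) else 0) := by
    intro c
    simp
  have hsum : ∀ G : (N → Bool) → (N → Bool) → ℝ≥0∞,
      exE (fun c => ∑ s, G s c) = ∑ s, exE (G s) := by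
    intro G
    unfold exE
    rw [Finset.sum_comm, Finset.mul_sum]
  calc exE (fun c₁ => exE fun c₂ => exE fun c₃ => F (comp c₁ c₂ c₃))
      = exE (fun c₁ => exE fun c₂ => exE fun c₃ =>
          ∑ s, F s * (if comp c₁ c₂ c₃ = s then (1 : ℝ≥0∞) else 0)) := by
        congr 1; funext c₁; congr 1; funext c₂; congr 1; funext c₃
        exact hexp _
    _ = ∑ s, F s * exE (fun c₁ => exE fun c₂ => exE fun c₃ =>
          if comp c₁ c₂ c₃ = s then (1 : ℝ≥0∞) else 0) := by
        simp_rw [hsum, exE_const_mul]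
    _ = ∑ s, F s * exE (fun c => if c = s then (1 : ℝ≥0∞) else 0) := by
        refine Finset.sum_congr rfl fun s _ => ?_
        rw [key s]
    _ = exE F := by
        simp_rw [← exE_const_mul]
        rw [← hsum]
        congr 1; funext c
        exact (hexp c).symm

/-- **Composite colourings.** A law on the pairs of colourings with a density at most `C`, a third
fair colouring, and a composite with a uniform image. -/
theorem sum_comp_le [Fintype (N → Bool)] {comp : (N → Bool) → (N → Bool) → (N → Bool) → (N → Bool)} (h : Unif3 comp)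
    (q : (N → Bool) → (N → Bool) → ℝ≥0∞) {C : ℝ≥0∞}
    (hq : ∀ c₁ c₂, q c₁ c₂ * 2 ^ Fintype.card N * 2 ^ Fintype.card N ≤ C)
    (F : (N → Bool) → ℝ≥0∞) :
    ∑ c₁, ∑ c₂, q c₁ c₂ * exE (fun c₃ => F (comp c₁ c₂ c₃)) ≤ C * exE F := by
  have h2 : ∀ c₁ c₂, q c₁ c₂ ≤ (2 ^ Fintype.card N)⁻¹ * ((2 ^ Fintype.card N)⁻¹ * C) := by
    intro c₁ c₂
    calc q c₁ c₂ = (2 ^ Fintype.card N)⁻¹ * ((2 ^ Fintype.card N)⁻¹ *
          (q c₁ c₂ * 2 ^ Fintype.card N * 2 ^ Fintype.card N)) := by
          have e : (2 ^ Fintype.card N : ℝ≥0∞)⁻¹ * 2 ^ Fintype.card N = 1 :=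
            ENNReal.inv_mul_cancel (by simp) (by simp)
          calc q c₁ c₂ = q c₁ c₂ * (((2 ^ Fintype.card N : ℝ≥0∞)⁻¹ * 2 ^ Fintype.card N) *
                ((2 ^ Fintype.card N : ℝ≥0∞)⁻¹ * 2 ^ Fintype.card N)) := by
                rw [e, mul_one, mul_one]
            _ = _ := by ring
      _ ≤ _ := by gcongr; exact hq c₁ c₂
  calc ∑ c₁, ∑ c₂, q c₁ c₂ * exE (fun c₃ => F (comp c₁ c₂ c₃))
      ≤ ∑ c₁, ∑ c₂, (2 ^ Fintype.card N)⁻¹ * ((2 ^ Fintype.card N)⁻¹ * C) *
          exE (fun c₃ => F (comp c₁ c₂ c₃)) :=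
        Finset.sum_le_sum fun c₁ _ => Finset.sum_le_sum fun c₂ _ => by gcongr; exact h2 c₁ c₂
    _ = C * exE (fun c₁ => exE fun c₂ => exE fun c₃ => F (comp c₁ c₂ c₃)) := by
        have e : ∀ G : (N → Bool) → ℝ≥0∞, exE G = (2 ^ Fintype.card N)⁻¹ * ∑ c, G c := exE_eq
        rw [e]
        simp_rw [e (fun c₂ => exE fun c₃ => F (comp _ c₂ c₃)), Finset.mul_sum]
        refine Finset.sum_congr rfl fun c₁ _ => Finset.sum_congr rfl fun c₂ _ => ?_
        ring
    _ = C * exE F := by rw [h.count F]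

end fin

theorem sum_pair {A B : Type*} [Fintype A] [Fintype B] [Fintype (A × B)] (f : A → B → ℝ≥0∞) :
    ∑ c : A × B, f c.1 c.2 = ∑ a, ∑ b, f a b := by
  rw [← Fintype.sum_prod_type']
  exact sum_inst _ _ _

/-! ### the configuration -/

variable {T : Set Pt} {X W U : Set ℂ}

/-- The configuration `T` with the colours `s` on its sites in the set `X`. -/
noncomputable def rcT (T : Set Pt) (X : Set ℂ) (s : X → Bool) : Set Pt :=
  mkT (pts T) (ext X s (col T))

theorem pts_rcT (s : X → Bool) : pts (rcT T X s) = pts T := pts_mkT _ _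

theorem oneCol_rcT (s : X → Bool) : OneCol (rcT T X s) := oneCol_mkT _ _

theorem col_rcT (s : X → Bool) {x : ℂ} (hx : x ∈ pts T) (hX : x ∈ X) :
    col (rcT T X s) x = s ⟨x, hX⟩ := by
  unfold rcT
  rw [col_mkT hx, ext_mem hX]

theorem col_rcT' (s : X → Bool) {x : ℂ} (hx : x ∈ pts T) (hX : x ∉ X) :
    col (rcT T X s) x = col T x := by
  unfold rcT
  rw [col_mkT hx, ext_notMem hX]

theorem rcT_congr {s s' : X → Bool} (h : ∀ v : X, (v : ℂ) ∈ pts T → s v = s' v) :
    rcT T X s = rcT T X s' := by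
  refine mkT_congr fun x hx => ?_
  by_cases hX : x ∈ X
  · rw [ext_mem hX, ext_mem hX]
    exact h ⟨x, hX⟩ hx
  · rw [ext_notMem hX, ext_notMem hX]

theorem rcT_self (hT : OneCol T) : rcT T X (fun v => col T v) = T := by
  unfold rcT
  rw [ext_self, mkT_self hT]

/-- A recolouring of a configuration in the window. -/
theorem flipOn_eq_rcT (hT : OneCol T) {U : Set ℂ} (hU : U ⊆ pts T ∩ X) :
    ∃ s : X → Bool, flipOn U '' T = rcT T X s := by
  classical
  refine ⟨fun v => col (flipOn U '' T) v, ?_⟩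
  have h1 : pts (flipOn U '' T) = pts T := H291.pts_flipOn U T
  have h2 := mkT_self (oneCol_flipOn hT U)
  rw [h1] at h2
  unfold rcT
  refine h2.symm.trans (mkT_congr fun x hx => ?_)
  by_cases hX : x ∈ X
  · rw [ext_mem hX]
  · rw [ext_notMem hX, col_flipOn hT U hx, if_neg fun h => hX (hU h).2]

/-- **Average over the recolourings of a part of the window.** -/
theorem avg_sub [Fintype X] (hU : pts T ∩ U ⊆ X) (s : X → Bool) (F : Set Pt → ℝ≥0∞) :
    avg U F (rcT T X s) = exE fun c => F (rcT T X (glue {v : X | (v : ℂ) ∉ U} s c)) := by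
  classical
  set p : X → Prop := fun v => (v : ℂ) ∈ pts T ∩ U with hp
  let e : {v : X // p v} → ℂ := fun i => (i.1 : ℂ)
  have he : Function.Injective e := fun i j hij => Subtype.ext (Subtype.ext hij)
  have hr : range e = pts (rcT T X s) ∩ U := by
    rw [pts_rcT]
    ext z
    constructor
    · rintro ⟨i, rfl⟩
      exact i.2
    · intro hz
      exact ⟨⟨⟨z, hU hz⟩, hz⟩, rfl⟩
  rw [avg_eq_sum he hr (oneCol_rcT s)]
  have hn : ∀ v : X, (v : ℂ) ∈ U → v ∉ {v : X | (v : ℂ) ∉ U} := fun v hv h => h hv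
  have h2 : ∀ c : X → Bool, rcT T X (glue {v : X | (v : ℂ) ∉ U} s c) =
      paint (rcT T X s) U e fun i => c i.1 := by
    intro c
    ext q
    by_cases hq : q.1 ∈ U
    · rw [mem_paint_of_mem _ hq]
      unfold rcT
      rw [mem_mkT]
      constructor
      · rintro ⟨h1, h2⟩
        have hqX : q.1 ∈ X := hU ⟨h1, hq⟩
        refine ⟨⟨⟨q.1, hqX⟩, h1, hq⟩, rfl, ?_⟩
        rw [h2, ext_mem hqX, glue_not_mem (hn _ hq)]
      · rintro ⟨i, h1, h2⟩
        have hqT : q.1 ∈ pts T := h1 ▸ i.2.1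
        have hqX : q.1 ∈ X := h1 ▸ i.1.2
        refine ⟨hqT, ?_⟩
        rw [← h2, ext_mem hqX, glue_not_mem (hn _ hq)]
        congr 1
        exact Subtype.ext h1
    · rw [mem_paint_of_notMem _ hr hq]
      unfold rcT
      rw [mem_mkT, mem_mkT]
      refine and_congr_right fun hqT => ?_
      by_cases hqX : q.1 ∈ X
      · rw [ext_mem hqX, ext_mem hqX,
          glue_mem (show (⟨q.1, hqX⟩ : X) ∈ {v : X | (v : ℂ) ∉ U} from hq)]
      · rw [ext_notMem hqX, ext_notMem hqX]
  simp_rw [h2]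
  rw [exE_eq]
  exact ((mean_inst _ _ _ _ _).trans (H184.sum_subtype_pow p
    (fun c => F (paint (rcT T X s) U e c)))).trans (mean_inst _ _ _ _ _)

/-- **The quenched average as a mean over the colourings of the sites.** -/
theorem avg_eq_exE (hT : OneCol T) [Fintype X] (hX : pts T ∩ X = pts T ∩ W)
    (F : Set Pt → ℝ≥0∞) : avg W F T = exE fun s => F (rcT T X s) := by
  have h1 := avg_sub (T := T) (X := X) (U := W) (fun x hx => (hX.symm.subset hx).2)
    (fun v => col T v) F
  rw [rcT_self hT] at h1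
  rw [h1]
  congr 1
  funext c
  congr 1
  refine rcT_congr fun v hv => ?_
  rw [glue_not_mem]
  exact fun h => h (hX.subset ⟨hv, v.2⟩).2

/-- Off the explored set. -/
theorem avg_off [Fintype X] (hX : pts T ∩ X = pts T ∩ W) (E : Set ℂ) (s : X → Bool)
    (F : Set Pt → ℝ≥0∞) :
    avg (W \ E) F (rcT T X s) = exE fun c => F (rcT T X (glue {v : X | (v : ℂ) ∈ E} s c)) := by
  rw [avg_sub (fun x hx => (hX.symm.subset ⟨hx.1, hx.2.1⟩).2)]
  congr 1
  funext c
  congr 1
  refine rcT_congr fun v hv => ?_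
  by_cases h : (v : ℂ) ∈ E
  · rw [glue_mem (show v ∈ {v : X | (v : ℂ) ∈ E} from h),
      glue_mem (show v ∈ {v : X | (v : ℂ) ∉ W \ E} from fun h' => h'.2 h)]
  · rw [glue_not_mem (show v ∉ {v : X | (v : ℂ) ∈ E} from h),
      glue_not_mem (show v ∉ {v : X | (v : ℂ) ∉ W \ E} from
        fun h' => h' ⟨(hX.subset ⟨hv, v.2⟩).2, h⟩)]

/-- Resampling some of the fresh colours. -/
theorem exE_avg_sub [Fintype X] (hU : pts T ∩ U ⊆ X) {E : Set X} (hE : ∀ v ∈ E, (v : ℂ) ∉ U)
    (s : X → Bool) (F : Set Pt → ℝ≥0∞) :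
    exE (fun c => avg U F (rcT T X (glue E s c))) = exE fun c => F (rcT T X (glue E s c)) := by
  have h1 : ∀ c : X → Bool, avg U F (rcT T X (glue E s c)) =
      exE fun c' => F (rcT T X (glue E s (glue {v : X | (v : ℂ) ∉ U} c c'))) := by
    intro c
    rw [avg_sub hU]
    congr 1
    funext c'
    congr 2
    funext v
    by_cases hv : v ∈ E
    · rw [glue_mem (show v ∈ {v : X | (v : ℂ) ∉ U} from hE v hv), glue_mem hv, glue_mem hv]
    · rw [glue_not_mem hv]
      by_cases hvU : v ∈ {v : X | (v : ℂ) ∉ U}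
      · rw [glue_mem hvU, glue_mem hvU, glue_not_mem hv]
      · rw [glue_not_mem hvU, glue_not_mem hvU]
  simp_rw [h1]
  have h2 : Unif3 fun c₁ c₂ _ : X → Bool => glue {v : X | (v : ℂ) ∉ U} c₁ c₂ := by
    intro g
    rw [← ex_resample (isStop_const {v : X | (v : ℂ) ∉ U}) g]
    exact ex_congr fun c₁ => ex_congr fun c₂ => ex_const _
  have h3 := h2.count fun c => F (rcT T X (glue E s c))
  simp only [exE_const] at h3
  exact h3

/-! ### annealed comparison -/

/-- **Annealed comparison, one colouring.** -/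
theorem ann_law (hT : OneCol T) [Fintype X] (hX : pts T ∩ X = pts T ∩ W) [Fintype (X → Bool)]
    (q : (X → Bool) → ℝ≥0∞) {C : ℝ≥0∞} (hq : ∀ s, q s * 2 ^ Fintype.card X ≤ C)
    (F : Set Pt → ℝ≥0∞) : ∑ s, q s * F (rcT T X s) ≤ C * avg W F T := by
  classical
  rw [avg_eq_exE hT hX]
  refine le_trans (le_of_eq ?_) (sum_law_le q (fun s => F (rcT T X s)) hq)
  exact sum_inst _ _ _

/-- **Annealed comparison, pairs of colourings and a third fair colouring.** -/
theorem ann_comp (hT : OneCol T) [Fintype X] (hX : pts T ∩ X = pts T ∩ W) {ι : Type*}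
    [Fintype ι] {e : ι → (X → Bool) × (X → Bool)} (he : Function.Injective e) {p : ι → ℝ≥0∞}
    {C : ℝ≥0∞} (hp : ∀ i, p i * 2 ^ Fintype.card X * 2 ^ Fintype.card X ≤ C)
    {comp : (X → Bool) → (X → Bool) → (X → Bool) → (X → Bool)} (h : Unif3 comp)
    {Y : ι → ℝ≥0∞} {k : ℝ≥0∞} (F : Set Pt → ℝ≥0∞)
    (hY : ∀ i, p i ≠ 0 →
      Y i ≤ k * exE fun c₃ => F (rcT T X (comp (e i).1 (e i).2 c₃))) :
    ∑ i, p i * Y i ≤ k * (C * avg W F T) := by
  classical
  rw [avg_eq_exE hT hX]
  set G : (X → Bool) × (X → Bool) → ℝ≥0∞ := fun c => exE fun c₃ => F (rcT T X (comp c.1 c.2 c₃))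
    with hG
  set q : (X → Bool) → (X → Bool) → ℝ≥0∞ := fun c₁ c₂ =>
    if (c₁, c₂) ∈ range e then (2 ^ Fintype.card X)⁻¹ * ((2 ^ Fintype.card X)⁻¹ * C) else 0
    with hq
  have h2 : ∀ i, p i ≤ (2 ^ Fintype.card X)⁻¹ * ((2 ^ Fintype.card X)⁻¹ * C) := by
    intro i
    have e1 : (2 ^ Fintype.card X : ℝ≥0∞)⁻¹ * 2 ^ Fintype.card X = 1 :=
      ENNReal.inv_mul_cancel (by simp) (by simp)
    calc p i = (2 ^ Fintype.card X)⁻¹ * ((2 ^ Fintype.card X)⁻¹ *
          (p i * 2 ^ Fintype.card X * 2 ^ Fintype.card X)) := by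
          calc p i = p i * (((2 ^ Fintype.card X : ℝ≥0∞)⁻¹ * 2 ^ Fintype.card X) *
                ((2 ^ Fintype.card X : ℝ≥0∞)⁻¹ * 2 ^ Fintype.card X)) := by
                rw [e1, mul_one, mul_one]
            _ = _ := by ring
      _ ≤ _ := by gcongr; exact hp i
  have h3 : ∑ i, p i * Y i ≤ k * ∑ i, q (e i).1 (e i).2 * G (e i) := by
    rw [Finset.mul_sum]
    refine Finset.sum_le_sum fun i _ => ?_
    have h4 : q (e i).1 (e i).2 = (2 ^ Fintype.card X)⁻¹ * ((2 ^ Fintype.card X)⁻¹ * C) := by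
      rw [hq]
      exact if_pos ⟨i, rfl⟩
    rw [h4]
    by_cases h0 : p i = 0
    · rw [h0, zero_mul]; exact zero_le
    · calc p i * Y i ≤ (2 ^ Fintype.card X)⁻¹ * ((2 ^ Fintype.card X)⁻¹ * C) * (k * G (e i)) :=
          mul_le_mul' (h2 i) (hY i h0)
        _ = _ := by ring
  refine h3.trans ?_
  gcongr
  have h5 : ∑ i, q (e i).1 (e i).2 * G (e i) ≤
      ∑ c : (X → Bool) × (X → Bool), q c.1 c.2 * G c := by
    rw [← Finset.sum_image (f := fun c => q c.1 c.2 * G c) (fun i _ j _ hij => he hij)]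
    exact Finset.sum_le_sum_of_subset (Finset.subset_univ _)
  refine h5.trans ?_
  refine (sum_pair fun c₁ c₂ => q c₁ c₂ * G (c₁, c₂)).le.trans ?_
  refine sum_comp_le h q (fun c₁ c₂ => ?_) fun s => F (rcT T X s)
  rw [hq]
  dsimp only
  have e1 : (2 ^ Fintype.card X : ℝ≥0∞)⁻¹ * 2 ^ Fintype.card X = 1 :=
    ENNReal.inv_mul_cancel (by simp) (by simp)
  split_ifs
  · calc (2 ^ Fintype.card X : ℝ≥0∞)⁻¹ * ((2 ^ Fintype.card X)⁻¹ * C) * 2 ^ Fintype.card X *
          2 ^ Fintype.card X = C * (((2 ^ Fintype.card X : ℝ≥0∞)⁻¹ * 2 ^ Fintype.card X) *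
          ((2 ^ Fintype.card X : ℝ≥0∞)⁻¹ * 2 ^ Fintype.card X)) := by ring
      _ ≤ C := by rw [e1, mul_one, mul_one]
  · rw [zero_mul, zero_mul]
    exact zero_le

/-! ### the process -/

section

universe u

open H566

/-- A quantity which is at most `k` times a quenched average of `F` on `G`. -/
theorem evMean_of_avg (hWm : MeasurableSet W) (hWb : Bornology.IsBounded W)
    {F : Set Pt → ℝ≥0∞} (hF : @Measurable _ _ voidSigma _ F) {G : Set Pt → Prop}
    {Y : Set Pt → ℝ≥0∞} {k c : ℝ≥0∞} (hY : ∀ T, G T → OneCol T → Y T ≤ k * avg W F T)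
    (hc : EvMean.{u} F c) : EvMean.{u} (fun T => ⨆ _ : G T, Y T) (k * c) := by
  obtain ⟨K, hK⟩ := hc
  refine ⟨K, fun Ω _ P _ S lam hS hl => ?_⟩
  refine ⟨fun ω => k * avg W F (S ω), (measurable_avg hS hWm hWb hF).const_mul k,
    Filter.Eventually.of_forall fun ω => iSup_le fun hG => hY _ hG (hS.oneColour ω), ?_⟩
  rw [lintegral_const_mul _ (measurable_avg hS hWm hWb hF), lintegral_avg hS hWm hWb hF]
  gcongr
  exact (hK Ω P S lam hS hl).lintegral_le

theorem evZero_of_avg (hWm : MeasurableSet W) (hWb : Bornology.IsBounded W)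
    {F : Set Pt → ℝ≥0∞} (hF : @Measurable _ _ voidSigma _ F) {G : Set Pt → Prop}
    {Y : Set Pt → ℝ≥0∞} {k : ℝ≥0∞} (hk : k ≠ ⊤)
    (hY : ∀ T, G T → OneCol T → Y T ≤ k * avg W F T)
    (hc : EvZero.{u} F) : EvZero.{u} fun T => ⨆ _ : G T, Y T := by
  intro ε hε
  have h1 : 0 < ε / (k.toReal + 1) := by positivity
  have h2 := evMean_of_avg hWm hWb hF hY (hc _ h1)
  refine h2.mono (fun _ => le_rfl) ?_
  nth_rw 1 [← ENNReal.ofReal_toReal hk]
  rw [← ENNReal.ofReal_mul ENNReal.toReal_nonneg]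
  apply ENNReal.ofReal_le_ofReal
  rw [mul_div_assoc', div_le_iff₀ (by positivity)]
  nlinarith [ENNReal.toReal_nonneg (a := k)]

end

end Vale.Agent.P148.R2.H910
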