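import Vale.Agent.P148.R2.H184.PC7
import Vale.Agent.P148.R2.H172.N3c
import Vale.Agent.P148.R2.H910.Ann

/-!
# The annealed comparison of a scene (P148, rows ANN / pc / door)

The worlds of the scene are indexed by pairs of colourings of the sites `X`, with a density at most
`C`. `Tc i` is the configuration with the first composite colouring, `E' i` the explored set (a
stopping set of the composite colouring). Then `H184.Ann` holds: resampling the points of the window
off the explored set has the law of the fair colouring, up to the factor `C`.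
-/

set_option linter.unusedSectionVars false

open MeasureTheory Set Metric Topology Filter ProbabilityTheory
open scoped ENNReal NNReal symmDiff

namespace Vale.Agent.P148.R2.H910

open H592 H184 H144 H953 H598 H566 _root_.P148.H729
open H838 (s12)
open _root_.P148 hiding col

variable {T : Set Pt} {X W : Set ℂ}

/-- **The annealed comparison, general form**: in the world `i` the colours `u i` are kept on `E i`,
and the composite has a uniform image. -/
theorem ann_unif {s : Scene} (hT : OneCol T) [Fintype X] (hX : pts T ∩ X = pts T ∩ W)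
    {e : s.ι → (X → Bool) × (X → Bool)} (he : Function.Injective e) {C : ℝ≥0∞}
    (hp : ∀ i, s.p i * 2 ^ Fintype.card X * 2 ^ Fintype.card X ≤ C)
    {comp : (X → Bool) → (X → Bool) → (X → Bool) → (X → Bool)} (hu : Unif3 comp)
    {E : s.ι → Set X} {u : s.ι → X → Bool}
    (hc : ∀ i, s.p i ≠ 0 → ∀ c₃, comp (e i).1 (e i).2 c₃ = glue (E i) (u i) c₃)
    {Tc : s.ι → Set Pt} {E' : s.ι → Set ℂ} (hTc : ∀ i, s.p i ≠ 0 → Tc i = rcT T X (u i))
    (hE' : ∀ i, s.p i ≠ 0 → ∀ v : X, ((v : ℂ) ∈ E' i ↔ v ∈ E i)) :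
    Ann s T (fun i => W \ E' i) Tc W C := by
  intro F
  have h := ann_comp hT hX he hp hu (Y := fun i => avg (W \ E' i) F (Tc i)) (k := 1) F ?_
  · rwa [one_mul] at h
  · intro i hi
    rw [one_mul, hTc i hi, avg_off hX]
    refine le_of_eq ?_
    congr 1
    funext c
    have h1 : {v : X | (v : ℂ) ∈ E' i} = E i := by
      ext v
      exact hE' i hi v
    rw [h1, hc i hi c]

/-- **The annealed comparison.** -/
theorem ann_scene {s : Scene} (hT : OneCol T) [Fintype X] (hX : pts T ∩ X = pts T ∩ W)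
    {e : s.ι → (X → Bool) × (X → Bool)} (he : Function.Injective e) {C : ℝ≥0∞}
    (hp : ∀ i, s.p i * 2 ^ Fintype.card X * 2 ^ Fintype.card X ≤ C)
    {H E : (X → Bool) → Set X} (hH : IsStop H) (hE : IsStop E) {Tc : s.ι → Set Pt}
    {E' : s.ι → Set ℂ} (hTc : ∀ i, s.p i ≠ 0 → Tc i = rcT T X (s12 H (e i).1 (e i).2))
    (hE' : ∀ i, s.p i ≠ 0 → ∀ v : X, ((v : ℂ) ∈ E' i ↔ v ∈ E (s12 H (e i).1 (e i).2))) :
    Ann s T (fun i => W \ E' i) Tc W C := by
  intro F
  have h := ann_comp hT hX he hp (unif3_comp hH hE) (Y := fun i => avg (W \ E' i) F (Tc i))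
    (k := 1) F ?_
  · rwa [one_mul] at h
  · intro i hi
    rw [one_mul, hTc i hi, avg_off hX]
    refine le_of_eq ?_
    congr 1
    funext c
    unfold H838.comp
    have h1 : {v : X | (v : ℂ) ∈ E' i} = E (s12 H (e i).1 (e i).2) := by
      ext v
      exact hE' i hi v
    rw [h1]

/-- The same with the colours of a region flipped on the explored set. -/
theorem ann_scene_sgn {s : Scene} (hT : OneCol T) [Fintype X] (hX : pts T ∩ X = pts T ∩ W)
    {e : s.ι → (X → Bool) × (X → Bool)} (he : Function.Injective e) {C : ℝ≥0∞}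
    (hp : ∀ i, s.p i * 2 ^ Fintype.card X * 2 ^ Fintype.card X ≤ C)
    {H E : (X → Bool) → Set X} (hH : IsStop H) (hE : IsStop E) (Sg : X → Prop)
    {Tc : s.ι → Set Pt} {E' : s.ι → Set ℂ}
    (hTc : ∀ i, s.p i ≠ 0 → Tc i = rcT T X (H953.flip Sg (s12 H (e i).1 (e i).2)))
    (hE' : ∀ i, s.p i ≠ 0 → ∀ v : X, ((v : ℂ) ∈ E' i ↔ v ∈ E (s12 H (e i).1 (e i).2))) :
    Ann s T (fun i => W \ E' i) Tc W C := by
  intro F
  have h := ann_comp hT hX he hp (unif3_sgn hH hE Sg) (Y := fun i => avg (W \ E' i) F (Tc i))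
    (k := 1) F ?_
  · rwa [one_mul] at h
  · intro i hi
    rw [one_mul, hTc i hi, avg_off hX]
    refine le_of_eq ?_
    congr 1
    funext c
    unfold H838.sgn
    have h1 : {v : X | (v : ℂ) ∈ E' i} = E (s12 H (e i).1 (e i).2) := by
      ext v
      exact hE' i hi v
    rw [h1]

/-! ### the law of the gates -/

open Classical in
/-- The weight of a pair of colourings has the density of the gate law. -/
theorem wq_le {V : Type*} [Fintype V] (g : H172.GateLaw V) {c : ℝ} (hc : 0 < c)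
    (hH : ∀ k < g.n, c ≤ pr (g.He k)) (hC : ∀ k < g.n, c ≤ pr (g.Ce k))
    (p : (V → Bool) × (V → Bool)) :
    ENNReal.ofReal (g.wq p) * 2 ^ Fintype.card V * 2 ^ Fintype.card V ≤
      ENNReal.ofReal (c ^ (2 * g.n))⁻¹ := by
  have h2 : (2 : ℝ≥0∞) ^ Fintype.card V = ENNReal.ofReal (2 ^ Fintype.card V) := by
    rw [ENNReal.ofReal_pow (by norm_num), ENNReal.ofReal_ofNat]
  rw [h2, ← ENNReal.ofReal_mul (g.wq_nonneg p), ← ENNReal.ofReal_mul
    (mul_nonneg (g.wq_nonneg p) (by positivity))]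
  apply ENNReal.ofReal_le_ofReal
  have h := g.L_le hc hH hC p.1 p.2
  have h4 : (4 : ℝ) ^ Fintype.card V = 2 ^ Fintype.card V * 2 ^ Fintype.card V := by
    rw [← mul_pow]; norm_num
  unfold H172.GateLaw.wq
  refine le_trans (le_of_eq ?_) h
  rw [h4]
  field_simp

/-- **The annealed comparison for the law of the gates.** -/
theorem ann_gate {s : Scene} (hT : OneCol T) [Fintype X] (hX : pts T ∩ X = pts T ∩ W)
    {e : s.ι → (X → Bool) × (X → Bool)} (he : Function.Injective e) (g : H172.GateLaw X)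
    {c : ℝ} (hc : 0 < c) (hH : ∀ k < g.n, c ≤ pr (g.He k)) (hC : ∀ k < g.n, c ≤ pr (g.Ce k))
    (hp : ∀ i, s.p i ≤ ENNReal.ofReal (g.wq (e i))) {E : (X → Bool) → Set X} (hE : IsStop E)
    {Tc : s.ι → Set Pt} {E' : s.ι → Set ℂ}
    (hTc : ∀ i, s.p i ≠ 0 → Tc i = rcT T X (g.w (e i).1 (e i).2))
    (hE' : ∀ i, s.p i ≠ 0 → ∀ v : X, ((v : ℂ) ∈ E' i ↔ v ∈ E (g.w (e i).1 (e i).2))) :
    Ann s T (fun i => W \ E' i) Tc W (ENNReal.ofReal (c ^ (2 * g.n))⁻¹) := by
  refine ann_scene (H := fun σ => ⋃ k ∈ Finset.range g.n, g.Hub k σ) hT hX he (fun i => ?_)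
    (g.stop_hubs (le_refl _)) hE hTc hE'
  refine le_trans ?_ (wq_le g hc hH hC (e i))
  gcongr
  exact hp i

end Vale.Agent.P148.R2.H910
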