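import Vale.Agent.P148.R2.H592.Wld
import Vale.Agent.P148.R2.H910.AnnS

/-!
# Row (pc) for scenes on the sites `site T R` (P148)

`Wn R` : the window of `site T R`, a fixed bounded Borel set (the ball of radius `R` and the three
corners of the hull).
-/

set_option linter.unusedSectionVars false

open MeasureTheory Set Metric Topology Filter ProbabilityTheory
open scoped ENNReal NNReal symmDiff

namespace Vale.Agent.P148.R2.H910

open H592 H184 H144 H953 H598 H566 H291 _root_.P148.H729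
open _root_.P148 hiding col

universe u

/-- The window of `site T R`. -/
noncomputable def Wn (R : ℝ) : Set ℂ := ball 0 R ∪ range (bR R)

theorem measurableSet_Wn (R : ℝ) : MeasurableSet (Wn R) :=
  measurableSet_ball.union (Set.finite_range _).measurableSet

theorem isBounded_Wn (R : ℝ) : Bornology.IsBounded (Wn R) :=
  isBounded_ball.union (Set.finite_range _).isBounded

/-- The points of the configuration in the window are its sites. -/
theorem pts_inter_site (T : Set Pt) (R : ℝ) : pts T ∩ site T R = pts T ∩ Wn R := by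
  unfold site XU Wn
  ext x
  constructor
  · rintro ⟨h1, h2 | h2⟩
    · exact ⟨h1, Or.inl h2.2⟩
    · exact ⟨h1, Or.inr h2⟩
  · rintro ⟨h1, h2 | h2⟩
    · exact ⟨h1, Or.inl ⟨h1, h2⟩⟩
    · exact ⟨h1, Or.inr h2⟩

/-- **Row (pc)** for worlds on the sites `site T R` with the facts of helper592. -/
theorem pc_row_site {κ₁ : Type} {τ : ℂ} {κ : ℝ} {Θ : Dt → ℂ} (hΘ : Wt τ κ Θ) {R : ℝ}
    (hR : 6 ≤ R) {C : ℝ≥0∞} (hC : C ≠ ⊤) (G : Set Pt → Prop) (sc : Set Pt → AScene κ₁)
    (E I : ∀ T, (sc T).ι → Set ℂ) (c : ∀ T, (sc T).ι → ℂ → Bool)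
    (hann : ∀ T, G T → OneCol T → Ann (sc T).toScene T (fun i => Wn R \ E T i)
      (fun i => mkT (pts T) (c T i)) (Wn R) C)
    (hw : ∀ T, G T → ∀ i, (sc T).p i ≠ 0 → ∃ (a σ : ℝ) (sg : ℂ → Bool), SiteOK T R σ ∧
      WFacts a (site T R) (E T i) (I T i) sg ∧ (∀ v ∈ E T i, v ∈ pts T → c T i v = sg v) ∧
      ((sc T).w i).X = site T R ∧ ((sc T).w i).b = bR R ∧
      ((sc T).w i).B = site T R \ I T i ∧ Disjoint (I T i) (E T i)) :
    EvZero.{u} (fun T => ⨆ _ : G T, (sc T).mn (sc T).pcl Θ) := by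
  refine pc_scene hΘ (measurableSet_Wn R) (isBounded_Wn R) hC G sc E _ hann ?_
  intro T hG hT i hi
  obtain ⟨a, σ, sg, hs, F, hc, hX, hb, hB, hd⟩ := hw T hG i hi
  refine ⟨?_, oneCol_mkT _ _, F.pcw hs hR hX hb hB hc, ?_, ?_⟩
  · rw [pts_mkT, ← pts_inter_site]
    exact hs.hull.fin.subset inter_subset_right
  · intro x hx
    have h1 : x ∈ I T i := (F.free_iff hX hB x).1 hx
    refine ⟨Or.inl ?_, Set.disjoint_left.1 hd h1⟩
    rw [mem_ball, dist_zero_right]
    have := F.norm_lt h1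
    linarith
  · intro x y hxy hx hy
    have h1 : x ∈ I T i := (F.free_iff hX hB x).1 hx
    rw [hX] at hxy
    rw [hB] at hy
    exact (F.bdry x h1 y hxy hy.2).1

end Vale.Agent.P148.R2.H910
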