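import Vale.Agent.P148.R2.H400.Flip11
import Vale.Agent.P148.R2.H910.PcRow

/-!
# Row (door), measure half (P148)

`mix_avg` : the mean of `MQ` over the colourings which are kept on `E` is a quenched average.
`door_scene` : if in every world of the scene, for every arc, the sum over the captured excursions is
at most `k` times this mean, then its mean over the scene tends to zero.
-/

set_option linter.unusedSectionVars false

open MeasureTheory Set Metric Topology Filter ProbabilityTheory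
open scoped ENNReal NNReal symmDiff

namespace Vale.Agent.P148.R2.H910

open H592 H184 H144 H953 H598 H566 H291 H400 _root_.P148.H729
open _root_.P148 hiding col

universe u

theorem sqr_sub_ball {x : ℂ} {L R : ℝ} (h : ‖x‖ + 2 * L ≤ R) : sqr x L ⊆ ball 0 R := by
  intro z hz
  obtain ⟨⟨h1, h2⟩, h3, h4⟩ := hz
  have h5 : ‖z - x‖ ≤ |(z - x).re| + |(z - x).im| := Complex.norm_le_abs_re_add_abs_im _
  have h6 : |(z - x).re| < L := by
    rw [Complex.sub_re, abs_lt]
    constructor <;> linarith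
  have h7 : |(z - x).im| < L := by
    rw [Complex.sub_im, abs_lt]
    constructor <;> linarith
  have h8 : ‖z‖ ≤ ‖x‖ + ‖z - x‖ := by
    have := norm_add_le x (z - x)
    rwa [add_sub_cancel] at this
  rw [mem_ball, dist_zero_right]
  linarith

/-- The big square of row (pc). -/
theorem Q0_sub_ball {R : ℝ} (hR : 6 ≤ R) : sqr ⟨-4, -4⟩ 8 ⊆ ball (0 : ℂ) R := by
  intro z hz
  obtain ⟨⟨h1, h2⟩, h3, h4⟩ := hz
  simp only at h1 h2 h3 h4
  rw [mem_ball_zero_iff]
  have h5 : ‖z‖ ^ 2 < 36 := by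
    rw [← Complex.normSq_eq_norm_sq, Complex.normSq_apply]
    nlinarith
  have h6 : ‖z‖ < 6 := by nlinarith [norm_nonneg z]
  linarith

/-- The mean over the colourings which are kept on `E` as a quenched average. -/
theorem mix_avg {T : Set Pt} {X W E Q : Set ℂ} {ι : Type*} {Qi : ι → Set ℂ} [Fintype X]
    [Fintype (X → Bool)] (hQi : ∀ i, Qi i ⊆ Q) (hXQ : X ∩ Q = pts T ∩ Q) (hQW : Q ⊆ W)
    (hX : pts T ∩ X = pts T ∩ W) (x₀ : X) (ω c : ℂ → Bool)
    (hω : ∀ x ∈ X, x ∈ Q → x ∈ E → ω x = c x) (Θ : Dt → ℂ) :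
    (2 ^ Fintype.card X)⁻¹ * ∑ τ : X → Bool, MQ X Q Qi (pc (idmap X x₀) (mixB X E ω τ)) Θ =
      avg (W \ E) (fun T' => MQ (pts T') Q Qi (H184.col T') Θ) (mkT (pts T) c) := by
  classical
  have h := avg_mix (T := mkT (pts T) c) (E := E) (W := W) hQi (by rw [pts_mkT]; exact hXQ)
    (oneCol_mkT _ _) x₀ hQW
    (by
      rw [pts_mkT]
      exact fun x hx => (hX.symm.subset ⟨hx.1, hx.2.1⟩).2) Θ
  rw [← h]
  refine Eq.trans ?_ (mean_inst ‹Fintype X› _ ‹Fintype (X → Bool)› _ _)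
  congr 1
  refine Finset.sum_congr rfl fun τ _ => ?_
  refine MQ_congr hQi rfl ?_ Θ
  intro x hx
  rw [pc_mixB x₀ E _ τ hx.1, pc_mixB x₀ E _ τ hx.1]
  by_cases hxE : x ∈ E
  · rw [if_pos hxE, if_pos hxE, hω x hx.1 hx.2 hxE]
    exact (col_mkT (hXQ.subset hx).1).symm
  · rw [if_neg hxE, if_neg hxE]

/-- **Row (door), measure half.** -/
theorem door_scene {κ₁ : Type} [Fintype κ₁] {τ : ℂ} {κ : ℝ} {Θ : Dt → ℂ} (hΘ : Wt τ κ Θ) {R : ℝ}
    {m : ℕ} (hm : 0 < m) (x : ℂ) {L : ℝ} (hL : 0 < L) (hball : sqr x L ⊆ ball 0 R)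
    {C k : ℝ≥0∞} (hC : C ≠ ⊤) (hk : k ≠ ⊤) (G : Set Pt → Prop) (sc : Set Pt → AScene κ₁)
    (F : ∀ T i, κ₁ → (((sc T).w i).V → Bool) → ((sc T).w i).D → ℝ≥0∞)
    (E : ∀ T, κ₁ → (sc T).ι → Set ℂ) (c : ∀ T, (sc T).ι → ℂ → Bool)
    (hann : ∀ T, G T → OneCol T → ∀ J, Ann (sc T).toScene T (fun i => Wn R \ E T J i)
      (fun i => mkT (pts T) (c T i)) (Wn R) C)
    (hw : ∀ T, G T → OneCol T → ∀ i, (sc T).p i ≠ 0 → ∀ J,
      ∃ (σ : ℝ) (_ : Fintype ((sc T).w i).X) (_ : Fintype (((sc T).w i).X → Bool))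
        (x₀ : ((sc T).w i).X) (ω : ℂ → Bool), SiteOK T R σ ∧ ((sc T).w i).X = site T R ∧
        (∀ z ∈ ((sc T).w i).X, z ∈ sqr x L → z ∈ E T J i → ω z = c T i z) ∧
        ((sc T).w i).msum ((sc T).Arc i J) (F T i J) ≤
          k * ((2 ^ Fintype.card ((sc T).w i).X)⁻¹ * ∑ τ : ((sc T).w i).X → Bool,
            MQ ((sc T).w i).X (sqr x L) (fun ij : Fin m × Fin m => sub x (L / m) ij.1 ij.2)
              (pc (idmap ((sc T).w i).X x₀) (mixB ((sc T).w i).X (E T J i) ω τ)) Θ)) :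
    EvZero.{u} (fun T => ⨆ _ : G T, (sc T).cm (F T)) := by
  classical
  have hm' : (0 : ℝ) < m := by exact_mod_cast hm
  have hs : 0 < L / m := by positivity
  have hn : (m : ℝ) * (L / m) ≤ L := by
    rw [mul_div_cancel₀]
    exact hm'.ne'
  have hQi : ∀ ij : Fin m × Fin m, sub x (L / m) ij.1 ij.2 ⊆ sqr x L := fun ij =>
    sub_subset hs hn ij.1.2 ij.2.2
  have hQW : sqr x L ⊆ Wn R := fun z hz => Or.inl (hball hz)
  set Y : ∀ T, κ₁ → (sc T).ι → ℝ≥0∞ := fun T J i => k * avg (Wn R \ E T J i)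
    (fun T' => MQ (pts T') (sqr x L)
      (fun ij : Fin m × Fin m => sub x (L / m) ij.1 ij.2) (H184.col T') Θ)
      (mkT (pts T) (c T i)) with hY
  have h1 : ∀ J, EvZero.{u} (fun T => ⨆ _ : G T, ∑ i, (sc T).p i * Y T J i) := by
    intro J
    exact evZero_of_ann hΘ hm x hL (measurableSet_Wn R) (isBounded_Wn R) hk hC G
      (fun T => (sc T).toScene) (fun T i => Wn R \ E T J i) (fun T i => mkT (pts T) (c T i))
      (fun T hG hT => hann T hG hT J) (fun T => Y T J) (fun T _ _ i _ => le_rfl)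
  have h2 : EvZero.{u} (fun T => ∑ J, ⨆ _ : G T, ∑ i, (sc T).p i * Y T J i) := by
    have key : ∀ s : Finset κ₁,
        EvZero.{u} (fun T => ∑ J ∈ s, ⨆ _ : G T, ∑ i, (sc T).p i * Y T J i) := by
      intro s
      induction s using Finset.induction_on with
      | empty =>
        intro ε hε
        exact EvMean.const fun T => by simp
      | insert J s hJ ih =>
        refine ((h1 J).add ih).mono fun T => ?_
        rw [Finset.sum_insert hJ]
    exact key Finset.univ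
  intro ε hε
  refine evMean_mono_col (h2 ε hε) (fun T hT => iSup_le fun hG => ?_) le_rfl
  simp only [iSup_pos hG]
  refine cm_le (s := sc T) fun i hi J => ?_
  obtain ⟨σ, i1, i2, x₀, ω, hs', hXs, hω, hle⟩ := hw T hG hT i hi J
  refine hle.trans (le_of_eq ?_)
  have hXQ : ((sc T).w i).X ∩ sqr x L = pts T ∩ sqr x L := by
    rw [hXs]
    exact hs'.agree hball
  have hX : pts T ∩ ((sc T).w i).X = pts T ∩ Wn R := by
    rw [hXs]
    exact pts_inter_site T R
  rw [mix_avg hQi hXQ hQW hX x₀ ω (c T i) hω Θ]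

end Vale.Agent.P148.R2.H910
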