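import Vale.Agent.P148.R2.H910.AnnC
import Vale.Agent.P148.R2.H910.DoorM

/-!
# Rows (pc) and (door) for scenes of the comb (P148)

`CombSc R M c T s e` : the scene `s` of the configuration `T` is indexed by pairs of colourings of
`site T R` (`e`), with weights at most those of `combLaw`. `cmb e i` : the composite colouring.
* `CombSc.ann` : the annealed comparison for every explored set `EJX M X K J`;
* `pc_row_comb`, `door_row_comb` : the rows, from the facts about the worlds.
-/

set_option linter.unusedSectionVars false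

open MeasureTheory Set Metric Topology Filter ProbabilityTheory
open scoped ENNReal NNReal symmDiff

namespace Vale.Agent.P148.R2.H910

open H592 H184 H144 H953 H598 H566 H291 H172 H678 H400 _root_.P148.H729
open Vale.Agent.P148.R2.N (nc)
open _root_.P148 hiding col

universe u

/-- The composite colouring of a pair of colourings. -/
noncomputable def cmb (M : ℕ) (X : Set ℂ) (c : (X → Bool) × (X → Bool)) : X → Bool :=
  H838.s12 (HubV M X) c.1 c.2

/-- The scene `s` of `T` is indexed by pairs of colourings of `site T R` with the law of the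
comb. -/
structure CombSc (R : ℝ) (M : ℕ) (c : ℝ) (T : Set Pt) (s : Scene)
    (e : s.ι → (site T R → Bool) × (site T R → Bool)) : Prop where
  inj : Function.Injective e
  ok : ∃ σ, SiteOK T R σ
  law : ∃ (hM : 0 < M) (_ : Fintype (site T R)),
    (∀ k < nc M, c ≤ pr ((combLaw hM (site T R) (Subtype.val : site T R → ℂ)).He k)) ∧
    (∀ k < nc M, c ≤ pr ((combLaw hM (site T R) (Subtype.val : site T R → ℂ)).Ce k)) ∧
    ∀ i, s.p i ≤ H172.pw (combLaw hM (site T R) (Subtype.val : site T R → ℂ)) (e i)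

/-- **The annealed comparison.** -/
theorem CombSc.ann {R : ℝ} {M : ℕ} {c : ℝ} {T : Set Pt} {s : Scene}
    {e : s.ι → (site T R → Bool) × (site T R → Bool)} (h : CombSc R M c T s e) (hc : 0 < c)
    (hT : OneCol T) (K : Set ℕ) (J : Set ℂ) :
    Ann s T (fun i => Wn R \ EJX M (site T R) K J (cmb M (site T R) (e i)))
      (fun i => mkT (pts T) (cT T (site T R) (cmb M (site T R) (e i))))
      (Wn R) (ENNReal.ofReal (c ^ (2 * nc M))⁻¹) := by
  obtain ⟨hM, i1, hH, hC, hp⟩ := h.law
  exact ann_comb hT (pts_inter_site T R) hM h.inj hc hH hC hp K J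

/-- **Row (pc).** -/
theorem pc_row_comb {κ₁ : Type} {τ : ℂ} {κ : ℝ} {Θ : Dt → ℂ} (hΘ : Wt τ κ Θ) {R : ℝ}
    (hR : 6 ≤ R) {M : ℕ} {c : ℝ} (hc : 0 < c) (G : Set Pt → Prop) (sc : Set Pt → AScene κ₁)
    (h : ∀ T, G T → ∃ e : (sc T).ι → (site T R → Bool) × (site T R → Bool),
      CombSc R M c T (sc T).toScene e ∧ ∀ i, (sc T).p i ≠ 0 →
        ((sc T).w i).X = site T R ∧ ((sc T).w i).b = bR R ∧
        ((sc T).w i).B = site T R \ fr (site T R) (E0X M (site T R) (cmb M (site T R) (e i))) ∧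
        ∃ a, WFacts a (site T R) (E0X M (site T R) (cmb M (site T R) (e i)))
          (fr (site T R) (E0X M (site T R) (cmb M (site T R) (e i))))
          (sgX (site T R) (cmb M (site T R) (e i)))) :
    EvZero.{u} (fun T => ⨆ _ : G T, (sc T).mn (sc T).pcl Θ) := by
  choose! e he using h
  refine pc_row_site hΘ hR (C := ENNReal.ofReal (c ^ (2 * nc M))⁻¹) ENNReal.ofReal_ne_top G sc
    (fun T i => E0X M (site T R) (cmb M (site T R) (e T i)))
    (fun T i => fr (site T R) (E0X M (site T R) (cmb M (site T R) (e T i))))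
    (fun T i => cT T (site T R) (cmb M (site T R) (e T i))) ?_ ?_
  · intro T hG hT
    exact (he T hG).1.ann hc hT univ ∅
  · intro T hG i hi
    obtain ⟨hX, hb, hB, a, F⟩ := (he T hG).2 i hi
    obtain ⟨σ, hs⟩ := (he T hG).1.ok
    refine ⟨a, σ, _, hs, F, fun v hv _ => cT_eq_sgX (E0X_sub hv), hX, hb, hB, ?_⟩
    exact Set.disjoint_left.2 fun z hz => fr_not_mem hz

/-- **Row (door).** `F` is the function summed over the captured excursions of the arc `j`, `K j`
and `Jr j` describe the explored set of the arc `j`. -/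
theorem door_row_comb {κ₁ : Type} [Fintype κ₁] {τ : ℂ} {κ : ℝ} {Θ : Dt → ℂ} (hΘ : Wt τ κ Θ)
    {R : ℝ} {m : ℕ} (hm : 0 < m) (x : ℂ) {L : ℝ} (hL : 0 < L) (hR : sqr x L ⊆ ball 0 R) {M : ℕ}
    {c : ℝ} (hc : 0 < c) {k : ℝ≥0∞} (hk : k ≠ ⊤) (G : Set Pt → Prop) (sc : Set Pt → AScene κ₁)
    (F : ∀ T i, κ₁ → (((sc T).w i).V → Bool) → ((sc T).w i).D → ℝ≥0∞)
    (K : κ₁ → Set ℕ) (Jr : κ₁ → Set ℂ)
    (h : ∀ T, G T → ∃ e : (sc T).ι → (site T R → Bool) × (site T R → Bool),
      CombSc R M c T (sc T).toScene e ∧ ∀ i, (sc T).p i ≠ 0 →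
        ((sc T).w i).X = site T R ∧ ∀ j,
        ∃ (_ : Fintype ((sc T).w i).X) (_ : Fintype (((sc T).w i).X → Bool))
          (x₀ : ((sc T).w i).X) (ω : ℂ → Bool),
          (∀ z ∈ site T R, z ∈ EJX M (site T R) (K j) (Jr j) (cmb M (site T R) (e i)) →
            ω z = sgX (site T R) (cmb M (site T R) (e i)) z) ∧
          ((sc T).w i).msum ((sc T).Arc i j) (F T i j) ≤
            k * ((2 ^ Fintype.card ((sc T).w i).X)⁻¹ * ∑ τ : ((sc T).w i).X → Bool,
              MQ ((sc T).w i).X (sqr x L) (fun ij : Fin m × Fin m => sub x (L / m) ij.1 ij.2)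
                (H184.pc (idmap ((sc T).w i).X x₀) (mixB ((sc T).w i).X
                  (EJX M (site T R) (K j) (Jr j) (cmb M (site T R) (e i))) ω τ)) Θ)) :
    EvZero.{u} (fun T => ⨆ _ : G T, (sc T).cm (F T)) := by
  choose! e he using h
  refine door_scene hΘ hm x hL hR (C := ENNReal.ofReal (c ^ (2 * nc M))⁻¹) ENNReal.ofReal_ne_top
    hk G sc F
    (fun T j i => EJX M (site T R) (K j) (Jr j) (cmb M (site T R) (e T i)))
    (fun T i => cT T (site T R) (cmb M (site T R) (e T i))) ?_ ?_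
  · intro T hG hT J
    exact (he T hG).1.ann hc hT (K J) (Jr J)
  · intro T hG hT i hi J
    obtain ⟨hX, hj⟩ := (he T hG).2 i hi
    obtain ⟨i1, i2, x₀, ω, hω, hle⟩ := hj J
    obtain ⟨σ, hs⟩ := (he T hG).1.ok
    refine ⟨σ, i1, i2, x₀, ω, hs, hX, ?_, hle⟩
    intro z hz _ hzE
    rw [hX] at hz
    rw [hω z hz hzE, cT_eq_sgX hz]

end Vale.Agent.P148.R2.H910
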