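import Vale.Agent.P148.R2.H172.Sc5
import Vale.Agent.P148.R2.H678.Br2
import Vale.Agent.P148.R2.H910.RowC

/-!
# Row (pc) for the scene of the comb (P148)

* `combSc_fscOf`, `combSc_sc` : the scene of the comb is a `CombSc`;
* `sc_world` : the worlds of the scene;
* `row_pc` : the row (pc) of the middle assembly, for the scene `H172.sc`.
-/

set_option linter.unusedSectionVars false

open MeasureTheory Set Metric Topology Filter ProbabilityTheory
open scoped ENNReal NNReal symmDiff

namespace Vale.Agent.P148.R2.H910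

open H592 H184 H144 H953 H598 H566 H291 H172 H678 H400 _root_.P148.H729
open Vale.Agent.P148.R2.N (nc ms)
open _root_.P148 hiding col

universe u

/-- The scene on the sites of `T`, on the good event. -/
theorem sc_eq {c : ℝ} {M : ℕ} {T : Set Pt} (hM : 0 < M) (hT : GoodT c M T) (N : ℕ) :
    sc N M T = (fscOf hM hT.site.hull).toA N := by
  unfold sc
  rw [fsc_eq hM hT.site]

/-- The scene of the comb is indexed by pairs of colourings, with the law of the comb. -/
theorem combSc_fscOf {c : ℝ} {M : ℕ} {T : Set Pt} (hM : 0 < M) (hT : GoodT c M T) :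
    CombSc 9 M c T (fscOf hM hT.site.hull).toScene (fun i => i) where
  inj _ _ h := h
  ok := ⟨_, hT.site⟩
  law := by
    let := fX hT.site.hull
    exact ⟨hM, fX hT.site.hull, (hT.he hM).1, (hT.he hM).2, fun i => le_of_eq (fscOf_p hM _ i)⟩

/-- The worlds of positive weight. -/
theorem fscOf_world {c : ℝ} {M : ℕ} {T : Set Pt} (hM : 2 ≤ M) (hT : GoodT c M T)
    {i : (site T 9 → Bool) × (site T 9 → Bool)}
    (hi : (fscOf (lt_of_lt_of_le two_pos hM) hT.site.hull).p i ≠ 0) :
    ((fscOf (lt_of_lt_of_le two_pos hM) hT.site.hull).w i).B =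
      site T 9 \ H678.fr (site T 9) (E0X M (site T 9) (cmb M (site T 9) i)) ∧
    WFacts (ms M) (site T 9) (E0X M (site T 9) (cmb M (site T 9) i))
      (H678.fr (site T 9) (E0X M (site T 9) (cmb M (site T 9) i)))
      (sgX (site T 9) (cmb M (site T 9) i)) := by
  let := fX hT.site.hull
  have hA := fscOf_A0 (lt_of_lt_of_le two_pos hM) hT.site.hull hi
  refine ⟨wrd_B (wc_site hT.site (by norm_num) _ hA), ?_⟩
  exact wfacts_site hT.site (by norm_num) (lt_of_lt_of_le two_pos hM) hM hA

/-- **Row (pc).** -/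
theorem row_pc {τ : ℂ} {κ : ℝ} {Θ : Dt → ℂ} (hΘ : Wt τ κ Θ) (N : ℕ) :
    ∀ᶠ M in atTop, ∃ G : Set Pt → Prop, Ev.{u} G ∧
      EvZero.{u} fun T => ⨆ _ : G T, (sc N M T).mn (sc N M T).pcl Θ := by
  obtain ⟨c, hc, h⟩ := exists_goodT.{u}
  filter_upwards [eventually_ge_atTop 2] with M hM
  have hM0 : 0 < M := lt_of_lt_of_le two_pos hM
  refine ⟨GoodT c M, h M hM0, ?_⟩
  refine pc_row_comb hΘ (R := 9) (by norm_num) (M := M) hc (GoodT c M) (fun T => sc N M T) ?_
  intro T hT
  rw [sc_eq hM0 hT N]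
  refine ⟨fun i => i, combSc_fscOf hM0 hT, fun i hi => ?_⟩
  obtain ⟨hB, hW⟩ := fscOf_world hM hT hi
  exact ⟨rfl, rfl, hB, ms M, hW⟩

end Vale.Agent.P148.R2.H910
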