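import Vale.Agent.P148.R2.H910.Om1

/-!
# The missing energy of a window: split families (P148, row OMEGA, part 2)

`L` local classes inside `A`, `S1`, `S2` two families of classes, every class which meets `A` is in
one of the three. The missing energy of `A` is at most
`E Σ_{S1} |V(Θ)|² + s E Σ |V(Θ)|² + (1 + s⁻¹) E Σ_{S2} |V(Θ 1_A)|²`:
whole values for `S1`, values inside `A` for `S2`.
-/

set_option linter.unusedSectionVars false

open MeasureTheory Set Metric Function ComplexConjugate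
open scoped ENNReal

namespace Vale.Agent.P148.R2.H910

open H258 H203

section fin

variable {V D : Type*} (T : Tri V D)

section fixed

variable [Fintype D] (σ : V → Bool)

theorem pair_smul_left (c : ℂ) (Θ Θ' : D → ℂ) :
    pair T σ (fun d => c * Θ d) Θ' = c * pair T σ Θ Θ' := by
  classical
  unfold pair
  rw [Finset.mul_sum]
  apply Finset.sum_congr rfl; intro d _
  rw [Finset.mul_sum]
  apply Finset.sum_congr rfl; intro e _
  split_ifs
  · ring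
  · simp

theorem pair_smul_right (c : ℂ) (Θ Θ' : D → ℂ) :
    pair T σ Θ (fun d => c * Θ' d) = conj c * pair T σ Θ Θ' := by
  rw [pair_conj T σ (fun d => c * Θ' d) Θ, pair_smul_left, map_mul, ← pair_conj]

/-- Cauchy-Schwarz with a parameter. -/
theorem pair_cs {s : ℝ} (hs : 0 < s) (Θ Θ' : D → ℂ) :
    2 * (pair T σ Θ Θ').re ≤ s⁻¹ * tot T σ Θ + s * tot T σ Θ' := by
  have h0 := tot_nonneg T σ (fun d => ((1 : ℂ) * Θ d) + ((-s : ℝ) : ℂ) * Θ' d)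
  rw [tot_add T σ (fun d => (1 : ℂ) * Θ d) (fun d => ((-s : ℝ) : ℂ) * Θ' d), tot_smul, tot_smul,
    pair_smul_left, pair_smul_right] at h0
  rw [Complex.conj_ofReal, one_mul, Complex.re_ofReal_mul, norm_one, one_pow, one_mul,
    Complex.norm_real, norm_neg, Real.norm_of_nonneg hs.le] at h0
  have h1 : 0 ≤ s⁻¹ * (tot T σ Θ + s ^ 2 * tot T σ Θ' + 2 * (-s * (pair T σ Θ Θ').re)) :=
    mul_nonneg (inv_nonneg.2 hs.le) h0
  have h2 : s⁻¹ * (tot T σ Θ + s ^ 2 * tot T σ Θ' + 2 * (-s * (pair T σ Θ Θ').re)) =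
      s⁻¹ * tot T σ Θ + s * tot T σ Θ' - 2 * (pair T σ Θ Θ').re := by
    field_simp
    ring
  linarith

variable {T σ}

/-- The cross term of a union of two disjoint families. -/
theorem pair_or {S₁ S₂ : D → Prop} (h1 : Sat T σ S₁) (h2 : Sat T σ S₂)
    (hd : ∀ d, S₁ d → ¬ S₂ d) (Θ Θ' : D → ℂ) :
    pair T σ (rs (fun d => S₁ d ∨ S₂ d) Θ) (rs (fun d => S₁ d ∨ S₂ d) Θ') =
      pair T σ (rs S₁ Θ) (rs S₁ Θ') + pair T σ (rs S₂ Θ) (rs S₂ Θ') := by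
  classical
  unfold pair
  rw [← Finset.sum_add_distrib]
  apply Finset.sum_congr rfl; intro d _
  rw [← Finset.sum_add_distrib]
  apply Finset.sum_congr rfl; intro e _
  by_cases hr : T.Rel σ d e
  · simp only [if_pos hr]
    have e1 := h1.iff hr
    have e2 := h2.iff hr
    unfold rs
    by_cases a1 : S₁ d
    · have b1 := e1.1 a1
      have c1 := hd d a1
      have c2 := hd e b1
      simp [a1, b1, c1, c2]
    · have b1 : ¬ S₁ e := fun h => a1 (e1.2 h)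
      by_cases a2 : S₂ d
      · have b2 := e2.1 a2
        simp [a1, b1, a2, b2]
      · have b2 : ¬ S₂ e := fun h => a2 (e2.2 h)
        simp [a1, b1, a2, b2]
  · simp [if_neg hr]

theorem tot_or {S₁ S₂ : D → Prop} (h1 : Sat T σ S₁) (h2 : Sat T σ S₂)
    (hd : ∀ d, S₁ d → ¬ S₂ d) (Θ : D → ℂ) :
    tot T σ (rs (fun d => S₁ d ∨ S₂ d) Θ) = tot T σ (rs S₁ Θ) + tot T σ (rs S₂ Θ) := by
  rw [tot_eq_pair, tot_eq_pair, tot_eq_pair, pair_or h1 h2 hd, Complex.add_re]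

end fixed

variable [Fintype D] [Fintype V]

open Classical in
/-- **Missing energy, split families.** -/
theorem missing_split (hP : T.Planar) {τ : ℂ} (hτ : τ ^ 2 + τ + 1 = 0) {Θ : D → ℂ}
    (h : ∀ d, Θ (T.nxt d) = τ ^ 2 * Θ d) (hg : ∀ d, ¬ T.Good d → Θ d = 0)
    {A : D → Prop} (hA : ∀ d, A (T.nxt d) ↔ A d) (L S1 S2 : (V → Bool) → D → Prop)
    (hL : ∀ σ, Sat T σ (L σ)) (hLA : ∀ σ d, L σ d → A d)
    (h1 : ∀ σ, Sat T σ (S1 σ)) (h2 : ∀ σ, Sat T σ (S2 σ))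
    (hAS : ∀ σ d, A d → T.Mi σ d → L σ d ∨ S1 σ d ∨ S2 σ d) {s : ℝ} (hs : 0 < s) :
    2 ^ Fintype.card V / 4 * ∑ d, ‖rs A Θ d‖ ^ 2 - ∑ σ : V → Bool, tot T σ (rs (L σ) Θ) ≤
      ∑ σ : V → Bool, tot T σ (rs (S1 σ) Θ) + s * (2 ^ Fintype.card V / 4 * ∑ d, ‖Θ d‖ ^ 2) +
        (1 + s⁻¹) * ∑ σ : V → Bool, tot T σ (rs (S2 σ) (rs A Θ)) := by
  classical
  -- make the second family disjoint from the first
  set S2' : (V → Bool) → D → Prop := fun σ d => S2 σ d ∧ ¬ S1 σ d with hS2'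
  have h2' : ∀ σ, Sat T σ (S2' σ) := fun σ d e hr hd =>
    ⟨h2 σ d e hr hd.1, (h1 σ).not d e hr hd.2⟩
  have hd' : ∀ σ d, S1 σ d → ¬ S2' σ d := fun σ d ha hb => hb.2 ha
  set S : (V → Bool) → D → Prop := fun σ d => S1 σ d ∨ S2' σ d with hSdef
  have hS : ∀ σ, Sat T σ (S σ) := by
    intro σ d e hr hd
    rcases hd with hd | hd
    · exact Or.inl (h1 σ d e hr hd)
    · exact Or.inr (h2' σ d e hr hd)
  have hAS' : ∀ σ d, A d → T.Mi σ d → L σ d ∨ S σ d := by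
    intro σ d ha hm
    rcases hAS σ d ha hm with hh | hh | hh
    · exact Or.inl hh
    · exact Or.inr (Or.inl hh)
    · by_cases h3 : S1 σ d
      · exact Or.inr (Or.inl h3)
      · exact Or.inr (Or.inr ⟨hh, h3⟩)
  -- the missing energy is the energy of the other classes inside `A`
  have step1 : 2 ^ Fintype.card V / 4 * ∑ d, ‖rs A Θ d‖ ^ 2 -
      ∑ σ : V → Bool, tot T σ (rs (L σ) Θ) ≤
      ∑ σ : V → Bool, tot T σ (rs (S σ) (rs A Θ)) := by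
    have e0 := missing_le T hP hτ (rs_rot h hA) (rs_good hg A) hA L S hL hLA hS hAS'
    have e1 : rs A (rs A Θ) = rs A Θ := rs_rs Θ fun d hd => hd
    have e2 : ∀ σ : V → Bool, rs (L σ) (rs A Θ) = rs (L σ) Θ := fun σ => rs_rs Θ (hLA σ)
    simp only [e1, e2] at e0
    exact e0
  -- orthogonality
  have hc : ∀ σ d e, T.Rel σ d e → A d → ¬ A e → S σ d := by
    intro σ d e hr a1 a2
    rcases hAS' σ d a1 hr.1 with h3 | h3
    · exact absurd (hLA σ e (hL σ d e hr h3)) a2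
    · exact h3
  have step2 : ∑ σ : V → Bool, (2 * (pair T σ (rs (S1 σ) (rs A Θ))
        (rs (S1 σ) (rs (fun d => ¬ A d) Θ))).re) =
      - ∑ σ : V → Bool, (2 * (pair T σ (rs (S2' σ) (rs A Θ))
        (rs (S2' σ) (rs (fun d => ¬ A d) Θ))).re) := by
    have e1 : ∑ σ : V → Bool, (2 * (pair T σ (rs A Θ) (rs (fun d => ¬ A d) Θ)).re) = 0 := by
      rw [← Finset.mul_sum, ← Complex.re_sum, sum_pair_rs T hP hτ h hg hA]
      simp
    have e2 : ∀ σ : V → Bool, (2 * (pair T σ (rs A Θ) (rs (fun d => ¬ A d) Θ)).re) =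
        2 * (pair T σ (rs (S1 σ) (rs A Θ)) (rs (S1 σ) (rs (fun d => ¬ A d) Θ))).re +
        2 * (pair T σ (rs (S2' σ) (rs A Θ)) (rs (S2' σ) (rs (fun d => ¬ A d) Θ))).re := by
      intro σ
      rw [← pair_cross T σ (hS σ) (hc σ) Θ]
      have := pair_or (h1 σ) (h2' σ) (hd' σ) (rs A Θ) (rs (fun d => ¬ A d) Θ)
      rw [hSdef]
      simp only
      rw [this, Complex.add_re, mul_add]
    rw [Finset.sum_congr rfl (fun σ _ => e2 σ), Finset.sum_add_distrib] at e1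
    linarith
  -- the first family
  have step3 : ∀ σ : V → Bool, tot T σ (rs (S1 σ) (rs A Θ)) ≤ tot T σ (rs (S1 σ) Θ) -
      2 * (pair T σ (rs (S1 σ) (rs A Θ)) (rs (S1 σ) (rs (fun d => ¬ A d) Θ))).re -
      tot T σ (rs (S1 σ) (rs (fun d => ¬ A d) Θ)) := by
    intro σ
    have e1 := tot_add T σ (rs (S1 σ) (rs A Θ)) (rs (S1 σ) (rs (fun d => ¬ A d) Θ))
    have e2 : (fun d => rs (S1 σ) (rs A Θ) d + rs (S1 σ) (rs (fun d => ¬ A d) Θ) d) =
        rs (S1 σ) Θ := by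
      funext d
      unfold rs
      by_cases a1 : S1 σ d <;> by_cases a2 : A d <;> simp [a1, a2]
    rw [e2] at e1
    linarith
  have step4 : ∀ σ : V → Bool,
      2 * (pair T σ (rs (S2' σ) (rs A Θ)) (rs (S2' σ) (rs (fun d => ¬ A d) Θ))).re ≤
      s⁻¹ * tot T σ (rs (S2' σ) (rs A Θ)) + s * tot T σ (rs (S2' σ) (rs (fun d => ¬ A d) Θ)) :=
    fun σ => pair_cs T σ hs _ _
  have step5 : ∀ σ : V → Bool, tot T σ (rs (S2' σ) (rs (fun d => ¬ A d) Θ)) ≤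
      tot T σ (rs (fun d => ¬ A d) Θ) := by
    intro σ
    have e1 := (h2' σ).tot_split (rs (fun d => ¬ A d) Θ)
    have e2 := tot_nonneg T σ (rs (fun d => ¬ S2' σ d) (rs (fun d => ¬ A d) Θ))
    linarith
  have step6 : ∑ σ : V → Bool, tot T σ (rs (fun d => ¬ A d) Θ) ≤
      2 ^ Fintype.card V / 4 * ∑ d, ‖Θ d‖ ^ 2 := by
    rw [sum_tot T hP hτ (rs_rot h (F := fun d => ¬ A d) fun d => not_congr (hA d)) (rs_good hg _)]
    apply mul_le_mul_of_nonneg_left _ (by positivity)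
    apply Finset.sum_le_sum
    intro d _
    unfold rs
    split_ifs
    · exact le_rfl
    · simp
  have step7 : ∀ σ : V → Bool, tot T σ (rs (S2' σ) (rs A Θ)) ≤ tot T σ (rs (S2 σ) (rs A Θ)) :=
    fun σ => tot_rs_mono (h2' σ) (h2 σ) (fun d hd _ => hd.1) _
  have step8 : ∑ σ : V → Bool, tot T σ (rs (S σ) (rs A Θ)) =
      ∑ σ : V → Bool, tot T σ (rs (S1 σ) (rs A Θ)) +
        ∑ σ : V → Bool, tot T σ (rs (S2' σ) (rs A Θ)) := by
    rw [← Finset.sum_add_distrib]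
    apply Finset.sum_congr rfl
    intro σ _
    exact tot_or (h1 σ) (h2' σ) (hd' σ) (rs A Θ)
  have n1 : ∑ σ : V → Bool, tot T σ (rs (S1 σ) (rs A Θ)) ≤
      ∑ σ : V → Bool, tot T σ (rs (S1 σ) Θ) +
        ∑ σ : V → Bool, (s⁻¹ * tot T σ (rs (S2' σ) (rs A Θ)) +
          s * tot T σ (rs (S2' σ) (rs (fun d => ¬ A d) Θ))) := by
    have e1 := Finset.sum_le_sum fun (σ : V → Bool) (_ : σ ∈ Finset.univ) => step3 σ
    rw [Finset.sum_sub_distrib, Finset.sum_sub_distrib, step2] at e1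
    have e2 := Finset.sum_le_sum fun (σ : V → Bool) (_ : σ ∈ Finset.univ) => step4 σ
    have e3 : 0 ≤ ∑ σ : V → Bool, tot T σ (rs (S1 σ) (rs (fun d => ¬ A d) Θ)) :=
      Finset.sum_nonneg fun σ _ => tot_nonneg T σ _
    linarith
  rw [Finset.sum_add_distrib, ← Finset.mul_sum, ← Finset.mul_sum] at n1
  have n2 : ∑ σ : V → Bool, tot T σ (rs (S2' σ) (rs (fun d => ¬ A d) Θ)) ≤
      2 ^ Fintype.card V / 4 * ∑ d, ‖Θ d‖ ^ 2 :=
    (Finset.sum_le_sum fun σ _ => step5 σ).trans step6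
  have n3 : ∑ σ : V → Bool, tot T σ (rs (S2' σ) (rs A Θ)) ≤
      ∑ σ : V → Bool, tot T σ (rs (S2 σ) (rs A Θ)) := Finset.sum_le_sum fun σ _ => step7 σ
  have n4 := mul_le_mul_of_nonneg_left n2 hs.le
  have n5 : (1 + s⁻¹) * ∑ σ : V → Bool, tot T σ (rs (S2' σ) (rs A Θ)) ≤
      (1 + s⁻¹) * ∑ σ : V → Bool, tot T σ (rs (S2 σ) (rs A Θ)) :=
    mul_le_mul_of_nonneg_left n3 (by positivity)
  rw [step8] at step1
  linarith

end fin

section world

open H592 H184 _root_.P148 _root_.P148.H729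

variable {X : Set ℂ} {b : ZMod 3 → ℂ} (h : HullTri X b) {V : Type*} (π : ℂ → V) (hπ : Fib X π)

variable [Fintype (Fc X b × ZMod 3)]

open Classical in
/-- Mean energy of the family `S` on the weight `Φ` in a world. -/
noncomputable def En [Fintype V] (S : (V → Bool) → Fc X b × ZMod 3 → Prop)
    (Φ : Fc X b × ZMod 3 → ℂ) : ℝ≥0∞ :=
  (2 ^ Fintype.card V)⁻¹ * ∑ σ : V → Bool, ENNReal.ofReal (tot (h.tri258 π hπ) σ (rs (S σ) Φ))

/-- The plane weight kept on the faces in `F0`. -/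
noncomputable def kw (Θ : Dt → ℂ) (F0 : Dt → Prop) : Fc X b × ZMod 3 → ℂ :=
  rs (fun q => F0 (dt q)) (wt h π hπ Θ)

/-- The energy of the kept faces. -/
theorem sum_kw_le (Θ : Dt → ℂ) {F0 : Dt → Prop} {Q : Set ℂ} (hQ : ∀ q : Fc X b × ZMod 3,
    F0 (dt q) → (h.tri258 π hπ).Good q → LF X Q (dt q)) :
    ∑ q : Fc X b × ZMod 3, ENNReal.ofReal (‖kw h π hπ Θ F0 q‖ ^ 2) ≤ EQ X Q Θ := by
  classical
  unfold EQ
  rw [tsum_dt (Q := Q) h]
  · refine Finset.sum_le_sum fun q _ => ?_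
    unfold kw rs wt
    by_cases h1 : F0 (dt q)
    · by_cases h2 : (h.tri258 π hπ).Good q
      · rw [if_pos h1, if_pos h2, if_pos (hQ q h1 h2)]
      · rw [if_pos h1, if_neg h2]; simp
    · rw [if_neg h1]; simp
  · intro d hd
    by_contra hl
    rw [if_neg hl] at hd
    exact hd rfl

open Classical in
/-- **Quenched missing energy, split families.** -/
theorem missing_split_world [Fintype V] {τ : ℂ} (hτ : τ ^ 2 + τ + 1 = 0)
    {Θ : Dt → ℂ} (hΘ : ∀ d, Θ (rt d) = τ ^ 2 * Θ d) {A : Set ℂ} (hF : Faith X A π)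
    {F0 : Dt → Prop} (hF0 : ∀ d, F0 (rt d) ↔ F0 d) (hsub : ∀ d, LF X A d → F0 d)
    (S1 S2 : (V → Bool) → Fc X b × ZMod 3 → Prop)
    (h1 : ∀ σ, Sat (h.tri258 π hπ) σ (S1 σ)) (h2 : ∀ σ, Sat (h.tri258 π hπ) σ (S2 σ))
    (hc : ∀ σ q, (h.tri258 π hπ).Mi σ q → LF X A (dt q) → ¬ InL X A (pc π σ) (dt q) →
      S1 σ q ∨ S2 σ q) {s : ℝ} (hs : 0 < s) :
    2 ^ Fintype.card V * EQ X A Θ ≤ 4 * ∑ σ : V → Bool, SQ X A (pc π σ) Θ +
      (4 * ∑ σ : V → Bool, ENNReal.ofReal (tot (h.tri258 π hπ) σ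
        (rs (S1 σ) (kw h π hπ Θ F0))) +
      ENNReal.ofReal s * (2 ^ Fintype.card V *
        ∑ q : Fc X b × ZMod 3, ENNReal.ofReal (‖kw h π hπ Θ F0 q‖ ^ 2)) +
      4 * (ENNReal.ofReal (1 + s⁻¹) * ∑ σ : V → Bool, ENNReal.ofReal (tot (h.tri258 π hπ) σ
        (rs (S2 σ) (kw h π hπ Θ (LF X A)))))) := by
  set T := h.tri258 π hπ with hT
  have hP := h.planar258 π hπ
  set Ψ : Fc X b × ZMod 3 → ℂ := kw h π hπ Θ F0 with hΨ
  have hF0' : ∀ q : Fc X b × ZMod 3, F0 (dt (T.nxt q)) ↔ F0 (dt q) := by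
    intro q
    show F0 (dt (q.1, q.2 + 1)) ↔ _
    rw [dt_next, hF0]
  have hrot : ∀ q, Ψ (T.nxt q) = τ ^ 2 * Ψ q := rs_rot (wt_rot h π hπ hΘ) hF0'
  have hg : ∀ q, ¬ T.Good q → Ψ q = 0 := rs_good (wt_good h π hπ Θ) _
  have hAr : ∀ q : Fc X b × ZMod 3, LF X A (dt (T.nxt q)) ↔ LF X A (dt q) := by
    intro q
    show LF X A (dt (q.1, q.2 + 1)) ↔ _
    rw [dt_next, LF_rt]
  have main := missing_split T hP hτ hrot hg (A := fun q => LF X A (dt q)) hAr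
    (fun σ q => InL X A (pc π σ) (dt q)) S1 S2 (fun σ => sat_inL h π hπ A hF σ)
    (fun σ q hq => hq.lf) h1 h2 (by
      intro σ q h1 h2
      by_cases h3 : InL X A (pc π σ) (dt q)
      · exact Or.inl h3
      · exact Or.inr (hc σ q h2 h1 h3)) hs
  have e1 : rs (fun q => LF X A (dt q)) Ψ = rs (fun q => LF X A (dt q)) (wt h π hπ Θ) :=
    rs_rs _ fun q hq => hsub _ hq
  have e2 : ∀ σ : V → Bool, rs (fun q => InL X A (pc π σ) (dt q)) Ψ =
      rs (fun q => InL X A (pc π σ) (dt q)) (wt h π hπ Θ) := fun σ =>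
    rs_rs _ fun q hq => hsub _ hq.lf
  simp_rw [e1, e2] at main
  rw [EQ_eq h π hπ A hF Θ]
  simp_rw [SQ_eq_tot h π hπ A hF Θ]
  change _ ≤ _ + (_ + _ + 4 * (ENNReal.ofReal (1 + s⁻¹) * ∑ σ : V → Bool,
    ENNReal.ofReal (tot T σ (rs (S2 σ) (rs (fun q => LF X A (dt q)) (wt h π hπ Θ))))))
  set E : ℝ := ∑ q, ‖rs (fun q => LF X A (dt q)) (wt h π hπ Θ) q‖ ^ 2 with hE
  have hE0 : 0 ≤ E := Finset.sum_nonneg fun q _ => by positivity
  have nn : ∀ (f : (V → Bool) → Fc X b × ZMod 3 → ℂ) (σ : V → Bool), 0 ≤ tot T σ (f σ) :=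
    fun f σ => tot_nonneg T σ _
  rw [← ENNReal.ofReal_sum_of_nonneg (fun σ _ => tot_nonneg T σ _),
    ← ENNReal.ofReal_sum_of_nonneg (fun σ _ => tot_nonneg T σ _),
    ← ENNReal.ofReal_sum_of_nonneg (fun σ _ => tot_nonneg T σ _),
    ← ENNReal.ofReal_sum_of_nonneg (fun q _ => by positivity)]
  have d4 : (4 : ℝ≥0∞) = ENNReal.ofReal 4 := by norm_num
  have d2 : (2 : ℝ≥0∞) ^ Fintype.card V = ENNReal.ofReal (2 ^ Fintype.card V) := by
    rw [ENNReal.ofReal_pow (by norm_num)]; norm_num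
  set R0 : ℝ := ∑ σ : V → Bool, tot T σ (rs (fun q => InL X A (pc π σ) (dt q)) (wt h π hπ Θ))
    with hR0
  set R1 : ℝ := ∑ σ : V → Bool, tot T σ (rs (S1 σ) Ψ) with hR1
  set R2 : ℝ := ∑ σ : V → Bool,
    tot T σ (rs (S2 σ) (rs (fun q => LF X A (dt q)) (wt h π hπ Θ))) with hR2
  set R3 : ℝ := ∑ q, ‖Ψ q‖ ^ 2 with hR3
  have p0 : 0 ≤ R0 := Finset.sum_nonneg fun σ _ => tot_nonneg T σ _
  have p1 : 0 ≤ R1 := Finset.sum_nonneg fun σ _ => tot_nonneg T σ _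
  have p2 : 0 ≤ R2 := Finset.sum_nonneg fun σ _ => tot_nonneg T σ _
  have p3 : 0 ≤ R3 := Finset.sum_nonneg fun q _ => by positivity
  have ps : 0 ≤ 1 + s⁻¹ := by positivity
  rw [d4, d2, ← ENNReal.ofReal_mul (by positivity), ← ENNReal.ofReal_mul (by norm_num),
    ← ENNReal.ofReal_mul (by norm_num), ← ENNReal.ofReal_mul (by positivity),
    ← ENNReal.ofReal_mul hs.le, ← ENNReal.ofReal_mul ps, ← ENNReal.ofReal_mul (by norm_num),
    ← ENNReal.ofReal_add (by positivity) (by positivity),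
    ← ENNReal.ofReal_add (by positivity) (by positivity),
    ← ENNReal.ofReal_add (by positivity) (by positivity)]
  apply ENNReal.ofReal_le_ofReal
  linarith

open Classical in
/-- **Averaged form.** -/
theorem missing_split_avg [Fintype V] {τ : ℂ} (hτ : τ ^ 2 + τ + 1 = 0)
    {Θ : Dt → ℂ} (hΘ : ∀ d, Θ (rt d) = τ ^ 2 * Θ d) {A : Set ℂ} (hF : Faith X A π)
    {F0 : Dt → Prop} (hF0 : ∀ d, F0 (rt d) ↔ F0 d) (hsub : ∀ d, LF X A d → F0 d)
    (S1 S2 : (V → Bool) → Fc X b × ZMod 3 → Prop)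
    (h1 : ∀ σ, Sat (h.tri258 π hπ) σ (S1 σ)) (h2 : ∀ σ, Sat (h.tri258 π hπ) σ (S2 σ))
    (hc : ∀ σ q, (h.tri258 π hπ).Mi σ q → LF X A (dt q) → ¬ InL X A (pc π σ) (dt q) →
      S1 σ q ∨ S2 σ q) {s : ℝ} (hs : 0 < s)
    {T : Set Pt} (hXA : X ∩ A = pts T ∩ A) (hT : OneCol T) :
    EQ (pts T) A Θ ≤ 4 * avg A (SC A Θ) T + (4 * En h π hπ S1 (kw h π hπ Θ F0) +
      ENNReal.ofReal s * ∑ q : Fc X b × ZMod 3, ENNReal.ofReal (‖kw h π hπ Θ F0 q‖ ^ 2) +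
      4 * (ENNReal.ofReal (1 + s⁻¹) * En h π hπ S2 (kw h π hπ Θ (LF X A)))) := by
  have key := missing_split_world h π hπ hτ hΘ hF hF0 hsub S1 S2 h1 h2 hc hs
  set N : ℝ≥0∞ := 2 ^ Fintype.card V with hN
  have hN0 : N ≠ 0 := by rw [hN]; simp
  have hNt : N ≠ ⊤ := by rw [hN]; simp
  rw [← EQ_congr hXA Θ, ← H144.avg_SQ hXA hT hF Θ]
  rw [← ENNReal.mul_le_mul_iff_right hN0 hNt]
  refine key.trans (le_of_eq ?_)
  rw [← hN]
  unfold En
  rw [← hN]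
  have e1 : ∀ x : ℝ≥0∞, N * (N⁻¹ * x) = x := by
    intro x
    rw [← mul_assoc, ENNReal.mul_inv_cancel hN0 hNt, one_mul]
  have e2 : ∀ c x : ℝ≥0∞, N * (c * (N⁻¹ * x)) = c * x := by
    intro c x
    rw [mul_left_comm, e1]
  have e3 : ∀ c c' x : ℝ≥0∞, N * (c * (c' * (N⁻¹ * x))) = c * (c' * x) := by
    intro c c' x
    rw [mul_left_comm, e2]
  have e4 : ∀ c x : ℝ≥0∞, N * (c * x) = c * (N * x) := fun c x => mul_left_comm _ _ _
  simp only [mul_add, e2, e3, e4]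
  try congr!

end world

end Vale.Agent.P148.R2.H910
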