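import Vale.Agent.P148.R2.H172.Sc1
import Vale.Agent.P148.R2.H678.Wrd
import Vale.Agent.P148.R2.H910.PcRow

/-!
# The annealed comparison for the comb on the sites of a world (P148)

`cT T X s` : the colours `s` on `X`, the colours of `T` elsewhere. `ann_comb` : `H184.Ann` for the law
of the comb on `X = site T R` and any explored set `EJX M X K J` of helper678.
-/

set_option linter.unusedSectionVars false

open MeasureTheory Set Metric Topology Filter ProbabilityTheory
open scoped ENNReal NNReal symmDiff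

namespace Vale.Agent.P148.R2.H910

open H592 H184 H144 H953 H598 H566 H291 H172 H678 _root_.P148.H729
open Vale.Agent.P148.R2.N (nc)
open _root_.P148 hiding col

/-- The colours `s` on the sites, the colours of `T` elsewhere. -/
noncomputable def cT (T : Set Pt) (X : Set ℂ) (s : X → Bool) : ℂ → Bool :=
  ext X s (H184.col T)

theorem cT_mem {T : Set Pt} {X : Set ℂ} {s : X → Bool} {x : ℂ} (hx : x ∈ X) :
    cT T X s x = s ⟨x, hx⟩ := ext_mem hx

theorem cT_eq_sgX {T : Set Pt} {X : Set ℂ} {s : X → Bool} {x : ℂ} (hx : x ∈ X) :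
    cT T X s x = sgX X s x := by
  rw [cT_mem hx, sgX_eq s hx]

/-- **The annealed comparison for the comb.** -/
theorem ann_comb {s : Scene} {T : Set Pt} {X W : Set ℂ} (hT : OneCol T) [Fintype X]
    (hX : pts T ∩ X = pts T ∩ W) {M : ℕ}
    (hM : 0 < M) {e : s.ι → (X → Bool) × (X → Bool)} (he : Function.Injective e)
    {c : ℝ} (hc : 0 < c)
    (hH : ∀ k < nc M, c ≤ pr ((combLaw hM X (Subtype.val : X → ℂ)).He k))
    (hC : ∀ k < nc M, c ≤ pr ((combLaw hM X (Subtype.val : X → ℂ)).Ce k))
    (hp : ∀ i, s.p i ≤ H172.pw (combLaw hM X (Subtype.val : X → ℂ)) (e i))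
    (K : Set ℕ) (J : Set ℂ) :
    Ann s T
      (fun i => W \ EJX M X K J
        ((combLaw hM X (Subtype.val : X → ℂ)).w (e i).1 (e i).2))
      (fun i => mkT (pts T) (cT T X
        ((combLaw hM X (Subtype.val : X → ℂ)).w (e i).1 (e i).2)))
      W (ENNReal.ofReal (c ^ (2 * nc M))⁻¹) := by
  refine ann_gate hT hX he
    (combLaw hM X (Subtype.val : X → ℂ)) hc hH hC (fun i => ?_)
    (isStop_EJV M X K J) (fun i _ => rfl) fun i _ v => Iff.rfl
  refine (hp i).trans (le_of_eq ?_)
  unfold H172.pw
  rw [wq_eq_gw]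

end Vale.Agent.P148.R2.H910
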