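import Vale.Agent.P148.R2.H144.T3a
import Vale.Agent.P148.R2.H910.Om0

/-!
# The missing energy of a window in a world (P148, row OMEGA, part 1)

`(X, b)` is a point set with three far corners, `π` a contraction of the points (`tri258`), `A` a
window whose points are not contracted. The mean energy missing from the local loops of `A` is at
most the mean energy of any family of classes which contains every class that meets `A` and is not
a local loop of `A`; the weight may be killed on any set of faces which does not meet `A`.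
-/

set_option linter.unusedSectionVars false

open MeasureTheory Set Metric Function ComplexConjugate
open scoped ENNReal

namespace Vale.Agent.P148.R2.H910

open H592 H184 H203 _root_.P148 _root_.P148.H729

/-! ### flip invariance of the local loops -/

theorem nx_not {c : ℂ → Bool} {d d' : Dt} : Nx (fun z => !c z) d d' ↔ Nx c d d' := by
  unfold Nx
  simp only [ne_eq, Bool.not_inj_iff]

theorem mn_not {c : ℂ → Bool} {d : Dt} : Mn (fun z => !c z) d ↔ Mn c d := by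
  unfold Mn
  simp only [ne_eq, Bool.not_inj_iff]

theorem lp_not {X Q : Set ℂ} {c : ℂ → Bool} {n : ℕ} {f : ℕ → Dt} :
    Lp X Q (fun z => !c z) n f ↔ Lp X Q c n f :=
  ⟨fun h => ⟨h.pos, h.lf, fun i => nx_not.1 (h.nx i), h.per, h.min⟩,
    fun h => ⟨h.pos, h.lf, fun i => nx_not.2 (h.nx i), h.per, h.min⟩⟩

theorem inL_not {X Q : Set ℂ} {c : ℂ → Bool} {d : Dt} :
    InL X Q (fun z => !c z) d ↔ InL X Q c d := by
  unfold InL
  simp only [lp_not]

theorem rl_not {X Q : Set ℂ} {c : ℂ → Bool} {d e : Dt} :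
    Rl X Q (fun z => !c z) d e ↔ Rl X Q c d e := by
  unfold Rl
  simp only [lp_not, mn_not]

theorem SQ_not (X Q : Set ℂ) (c : ℂ → Bool) (Θ : Dt → ℂ) :
    SQ X Q (fun z => !c z) Θ = SQ X Q c Θ := by
  have h1 : ∀ d, cl X Q (fun z => !c z) d = cl X Q c d := by
    intro d
    unfold cl
    simp only [rl_not]
  unfold SQ gg W
  simp only [h1]

theorem pc_neg {V : Type*} (π : ℂ → V) (σ : V → Bool) : pc π (neg σ) = fun z => !pc π σ z := rfl

section

variable {X : Set ℂ} {b : ZMod 3 → ℂ} (h : HullTri X b) {V : Type*} (π : ℂ → V) (hπ : Fib X π)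

variable [Fintype (Fc X b × ZMod 3)]

open Classical in
/-- **Quenched missing energy.** `F0` is the set of faces where the weight is kept, `S σ` a family
of classes containing every class which meets `A` and is not a local loop of `A`. -/
theorem missing_world [Fintype V] {τ : ℂ} (hτ : τ ^ 2 + τ + 1 = 0)
    {Θ : Dt → ℂ} (hΘ : ∀ d, Θ (rt d) = τ ^ 2 * Θ d) {A : Set ℂ} (hF : Faith X A π)
    {F0 : Dt → Prop} (hF0 : ∀ d, F0 (rt d) ↔ F0 d) (hsub : ∀ d, LF X A d → F0 d)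
    (S : (V → Bool) → Fc X b × ZMod 3 → Prop)
    (hS : ∀ σ, Sat (h.tri258 π hπ) σ (S σ))
    (hc : ∀ σ q, (h.tri258 π hπ).Mi σ q → LF X A (dt q) → ¬ InL X A (pc π σ) (dt q) → S σ q) :
    2 ^ Fintype.card V * EQ X A Θ ≤ 4 * ∑ σ : V → Bool, SQ X A (pc π σ) Θ +
      4 * ∑ σ : V → Bool, ENNReal.ofReal (tot (h.tri258 π hπ) σ
        (rs (S σ) (rs (fun q => F0 (dt q)) (wt h π hπ Θ)))) := by
  set T := h.tri258 π hπ with hT
  have hP := h.planar258 π hπ
  set Ψ : Fc X b × ZMod 3 → ℂ := rs (fun q => F0 (dt q)) (wt h π hπ Θ) with hΨ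
  have hF0' : ∀ q : Fc X b × ZMod 3, F0 (dt (T.nxt q)) ↔ F0 (dt q) := by
    intro q
    show F0 (dt (q.1, q.2 + 1)) ↔ _
    rw [dt_next, hF0]
  have hrot : ∀ q, Ψ (T.nxt q) = τ ^ 2 * Ψ q := rs_rot (wt_rot h π hπ hΘ) hF0'
  have hg : ∀ q, ¬ T.Good q → Ψ q = 0 := rs_good (wt_good h π hπ Θ) _
  have hAr : ∀ q : Fc X b × ZMod 3, LF X A (dt (T.nxt q)) ↔ LF X A (dt q) := by
    intro q
    show LF X A (dt (q.1, q.2 + 1)) ↔ _
    rw [dt_next, LF_rt]
  have main := missing_le T hP hτ hrot hg (A := fun q => LF X A (dt q)) hAr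
    (fun σ q => InL X A (pc π σ) (dt q)) S (fun σ => sat_inL h π hπ A hF σ)
    (fun σ q hq => hq.lf) hS (by
      intro σ q h1 h2
      by_cases h3 : InL X A (pc π σ) (dt q)
      · exact Or.inl h3
      · exact Or.inr (hc σ q h2 h1 h3))
  have e1 : rs (fun q => LF X A (dt q)) Ψ = rs (fun q => LF X A (dt q)) (wt h π hπ Θ) :=
    rs_rs _ fun q hq => hsub _ hq
  have e2 : ∀ σ : V → Bool, rs (fun q => InL X A (pc π σ) (dt q)) Ψ =
      rs (fun q => InL X A (pc π σ) (dt q)) (wt h π hπ Θ) := fun σ =>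
    rs_rs _ fun q hq => hsub _ hq.lf
  simp_rw [e1, e2] at main
  rw [EQ_eq h π hπ A hF Θ]
  simp_rw [SQ_eq_tot h π hπ A hF Θ]
  set E : ℝ := ∑ q, ‖rs (fun q => LF X A (dt q)) (wt h π hπ Θ) q‖ ^ 2 with hE
  have hE0 : 0 ≤ E := Finset.sum_nonneg fun q _ => by positivity
  rw [← ENNReal.ofReal_sum_of_nonneg (fun σ _ => tot_nonneg T σ _),
    ← ENNReal.ofReal_sum_of_nonneg (fun σ _ => tot_nonneg T σ _)]
  have d4 : (4 : ℝ≥0∞) = ENNReal.ofReal 4 := by norm_num
  have d2 : (2 : ℝ≥0∞) ^ Fintype.card V = ENNReal.ofReal (2 ^ Fintype.card V) := by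
    rw [ENNReal.ofReal_pow (by norm_num)]; norm_num
  rw [d4, d2, ← ENNReal.ofReal_mul (by positivity), ← ENNReal.ofReal_mul (by norm_num),
    ← ENNReal.ofReal_mul (by norm_num), ← ENNReal.ofReal_add
      (mul_nonneg (by norm_num) (Finset.sum_nonneg fun σ _ => tot_nonneg T σ _))
      (mul_nonneg (by norm_num) (Finset.sum_nonneg fun σ _ => tot_nonneg T σ _))]
  apply ENNReal.ofReal_le_ofReal
  linarith

open Classical in
/-- **Averaged form**, with the energy of the non local classes only over the colourings with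
`O` black. -/
theorem missing_avg [Fintype V] {τ : ℂ} (hτ : τ ^ 2 + τ + 1 = 0)
    {Θ : Dt → ℂ} (hΘ : ∀ d, Θ (rt d) = τ ^ 2 * Θ d) {A : Set ℂ} (hF : Faith X A π)
    {F0 : Dt → Prop} (hF0 : ∀ d, F0 (rt d) ↔ F0 d) (hsub : ∀ d, LF X A d → F0 d)
    (S : (V → Bool) → Fc X b × ZMod 3 → Prop)
    (hS : ∀ σ, Sat (h.tri258 π hπ) σ (S σ))
    (hc : ∀ σ q, (h.tri258 π hπ).Mi σ q → LF X A (dt q) → ¬ InL X A (pc π σ) (dt q) → S σ q)
    (hneg : ∀ σ q, S (neg σ) q ↔ S σ q) (O : V)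
    {T : Set Pt} (hXA : X ∩ A = pts T ∩ A) (hT : OneCol T) :
    EQ (pts T) A Θ ≤ 4 * avg A (SC A Θ) T +
      8 * ((2 ^ Fintype.card V)⁻¹ * ∑ σ : V → Bool, if σ O = true then
        ENNReal.ofReal (tot (h.tri258 π hπ) σ
          (rs (S σ) (rs (fun q => F0 (dt q)) (wt h π hπ Θ)))) else 0) := by
  have key := missing_world h π hπ hτ hΘ hF hF0 hsub S hS hc
  rw [sum_eq_two_mul O (fun σ => ENNReal.ofReal (tot (h.tri258 π hπ) σ
        (rs (S σ) (rs (fun q => F0 (dt q)) (wt h π hπ Θ))))) (by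
      intro σ
      have : S (neg σ) = S σ := funext fun q => propext (hneg σ q)
      simp only [this, tot_neg])] at key
  set N : ℝ≥0∞ := 2 ^ Fintype.card V with hN
  have hN0 : N ≠ 0 := by rw [hN]; simp
  have hNt : N ≠ ⊤ := by rw [hN]; simp
  rw [← EQ_congr hXA Θ, ← H144.avg_SQ hXA hT hF Θ]
  rw [← ENNReal.mul_le_mul_iff_right hN0 hNt]
  refine key.trans (le_of_eq ?_)
  rw [← hN, mul_add]
  have e1 : ∀ x : ℝ≥0∞, N * (4 * (N⁻¹ * x)) = 4 * x := by
    intro x
    rw [mul_left_comm, ← mul_assoc N, ENNReal.mul_inv_cancel hN0 hNt, one_mul]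
  have e2 : ∀ x : ℝ≥0∞, N * (8 * (N⁻¹ * x)) = 8 * x := by
    intro x
    rw [mul_left_comm, ← mul_assoc N, ENNReal.mul_inv_cancel hN0 hNt, one_mul]
  rw [e2]
  congr 1
  · rw [← e1]
  · rw [← mul_assoc]; norm_num

end

/-! ### the canonical family -/

section

variable {X : Set ℂ} {b : ZMod 3 → ℂ} (h : HullTri X b) {V : Type*} (π : ℂ → V) (hπ : Fib X π)

/-- The classes which meet `A` and are not local loops of `A`. -/
def NL (A : Set ℂ) (σ : V → Bool) (q : Fc X b × ZMod 3) : Prop :=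
  ∃ r, (h.tri258 π hπ).Rel σ q r ∧ LF X A (dt r) ∧ ¬ InL X A (pc π σ) (dt r)

theorem nl_sat (A : Set ℂ) (σ : V → Bool) [Finite (Fc X b × ZMod 3)] :
    Sat (h.tri258 π hπ) σ (NL h π hπ A σ) := by
  rintro q r hr ⟨s, h1, h2⟩
  exact ⟨s, (h.tri258 π hπ).rel_trans ((h.tri258 π hπ).rel_symm hr) h1, h2⟩

theorem nl_neg (A : Set ℂ) (σ : V → Bool) (q : Fc X b × ZMod 3) :
    NL h π hπ A (neg σ) q ↔ NL h π hπ A σ q := by
  unfold NL
  simp only [rel_neg, pc_neg, inL_not]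

theorem nl_cover (A : Set ℂ) (σ : V → Bool) (q : Fc X b × ZMod 3) [Finite (Fc X b × ZMod 3)]
    (h1 : (h.tri258 π hπ).Mi σ q) (h2 : LF X A (dt q)) (h3 : ¬ InL X A (pc π σ) (dt q)) :
    NL h π hπ A σ q :=
  ⟨q, (h.tri258 π hπ).rel_refl h1, h2, h3⟩

/-- No member of such a class is on a local loop of `A`. -/
theorem NL.not_inL {A : Set ℂ} [Finite V] (hF : Faith X A π) {σ : V → Bool}
    {q : Fc X b × ZMod 3} [Finite (Fc X b × ZMod 3)] (hq : NL h π hπ A σ q) :
    ¬ InL X A (pc π σ) (dt q) := by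
  obtain ⟨r, h1, -, h3⟩ := hq
  exact fun hin => h3 (sat_inL h π hπ A hF σ q r h1 hin)

end

end Vale.Agent.P148.R2.H910
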