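import Vale.Agent.P148.R2.H910.Inst
import Vale.Agent.P148.R2.H910.Om3
import Vale.Agent.P148.R2.H910.Om0
import Vale.Agent.P148.R2.H566.World

/-!
# Quenched averages and the mean of a world (P148, row OMEGA, part 4)

* `avg_resample`: resampling the colours of the free sites, a set which depends on the configuration
  but does not change when the free sites are recoloured, does not change a quenched average;
* `En_eq_avg`: the mean over the colourings of world 0 is the average over the recolourings of its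
  free sites.
-/

set_option linter.unusedSectionVars false

open MeasureTheory Set Metric Topology Filter
open scoped ENNReal NNReal symmDiff

namespace Vale.Agent.P148.R2.H910

open H592 H184 H203 H144 _root_.P148 _root_.P148.H729

/-! ### resampling -/

/-- Resampling in a finite Boolean cube. -/
theorem sum_resample {α : Type*} [DecidableEq α] (V : Finset α) (v : Finset α → Finset α)
    (hv : ∀ U ⊆ V, v U ⊆ V) (hinv : ∀ U ⊆ V, ∀ U' ⊆ v U, v (U' ∆ U) = v U)
    (F : Finset α → ℝ≥0∞) :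
    ∑ U ∈ V.powerset, (2 ^ (v U).card)⁻¹ * ∑ U' ∈ (v U).powerset, F (U' ∆ U) =
      ∑ U ∈ V.powerset, F U := by
  have key : ∑ U ∈ V.powerset, ∑ U' ∈ (v U).powerset, (2 ^ (v U).card)⁻¹ * F (U' ∆ U) =
      ∑ U ∈ V.powerset, ∑ U' ∈ (v U).powerset, (2 ^ (v U).card)⁻¹ * F U := by
    rw [Finset.sum_sigma', Finset.sum_sigma']
    have hmem : ∀ p : (_ : Finset α) × Finset α,
        p ∈ V.powerset.sigma (fun U => (v U).powerset) →
        (⟨p.2 ∆ p.1, p.2⟩ : (_ : Finset α) × Finset α) ∈
          V.powerset.sigma (fun U => (v U).powerset) := by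
      rintro ⟨U, U'⟩ hp
      rw [Finset.mem_sigma, Finset.mem_powerset, Finset.mem_powerset] at hp
      have hp1 : U ⊆ V := hp.1
      have hp2 : U' ⊆ v U := hp.2
      rw [Finset.mem_sigma, Finset.mem_powerset, Finset.mem_powerset]
      refine ⟨?_, ?_⟩
      · intro z hz
        rcases Finset.mem_symmDiff.1 hz with h | h
        · exact hv U hp1 (hp2 h.1)
        · exact hp1 h.1
      · show U' ⊆ v (U' ∆ U)
        rw [hinv U hp1 U' hp2]
        exact hp2
    refine Finset.sum_bij' (fun p _ => ⟨p.2 ∆ p.1, p.2⟩) (fun p _ => ⟨p.2 ∆ p.1, p.2⟩) hmem hmem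
      ?_ ?_ ?_
    · rintro ⟨U, U'⟩ _
      simp only [symmDiff_symmDiff_cancel_left]
    · rintro ⟨U, U'⟩ _
      simp only [symmDiff_symmDiff_cancel_left]
    · rintro ⟨U, U'⟩ hp
      rw [Finset.mem_sigma, Finset.mem_powerset, Finset.mem_powerset] at hp
      have hp1 : U ⊆ V := hp.1
      have hp2 : U' ⊆ v U := hp.2
      show (2 ^ (v U).card)⁻¹ * F (U' ∆ U) = (2 ^ (v (U' ∆ U)).card)⁻¹ * F (U' ∆ U)
      rw [hinv U hp1 U' hp2]
  calc ∑ U ∈ V.powerset, (2 ^ (v U).card)⁻¹ * ∑ U' ∈ (v U).powerset, F (U' ∆ U)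
      = ∑ U ∈ V.powerset, ∑ U' ∈ (v U).powerset, (2 ^ (v U).card)⁻¹ * F (U' ∆ U) := by
        refine Finset.sum_congr rfl fun U _ => ?_
        rw [Finset.mul_sum]
    _ = ∑ U ∈ V.powerset, ∑ U' ∈ (v U).powerset, (2 ^ (v U).card)⁻¹ * F U := key
    _ = _ := by
        refine Finset.sum_congr rfl fun U _ => ?_
        rw [Finset.sum_const, Finset.card_powerset, nsmul_eq_mul]
        push_cast
        rw [← mul_assoc, ENNReal.mul_inv_cancel (by simp) (by simp), one_mul]

/-- **Resampling of the free sites.** -/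
theorem avg_resample {W : Set ℂ} {T : Set Pt} (hT : (pts T ∩ W).Finite) (Fr : Set Pt → Set ℂ)
    (hFr : ∀ U : Set ℂ, U ⊆ pts T ∩ W → Fr (flipOn U '' T) ⊆ W)
    (hinv : ∀ U : Set ℂ, U ⊆ pts T ∩ W → ∀ U' : Set ℂ, U' ⊆ pts T ∩ Fr (flipOn U '' T) →
      Fr (flipOn (U' ∆ U) '' T) = Fr (flipOn U '' T)) (F : Set Pt → ℝ≥0∞) :
    avg W (fun T => avg (Fr T) F T) T = avg W F T := by
  classical
  set V : Finset ℂ := hT.toFinset with hV
  have hVc : ∀ U : Finset ℂ, U ⊆ V → (U : Set ℂ) ⊆ pts T ∩ W := fun U hU z hz =>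
    hT.mem_toFinset.1 (hU hz)
  set v : Finset ℂ → Finset ℂ := fun U => V.filter fun z => z ∈ Fr (flipOn (U : Set ℂ) '' T)
    with hv
  have hvc : ∀ U : Finset ℂ, U ⊆ V → ((v U : Finset ℂ) : Set ℂ) =
      pts T ∩ Fr (flipOn (U : Set ℂ) '' T) := by
    intro U hU
    ext z
    rw [hv]
    simp only [Finset.coe_filter, mem_ofPred_eq, hV, Set.Finite.mem_toFinset]
    constructor
    · exact fun h => ⟨h.1.1, h.2⟩
    · exact fun h => ⟨⟨h.1, hFr _ (hVc U hU) h.2⟩, h.2⟩
  have key := sum_resample V v (fun U _ => Finset.filter_subset _ _) (by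
      intro U hU U' hU'
      have h1 : (U' : Set ℂ) ⊆ pts T ∩ Fr (flipOn (U : Set ℂ) '' T) := by
        rw [← hvc U hU]
        exact_mod_cast hU'
      have h2 := hinv (U : Set ℂ) (hVc U hU) (U' : Set ℂ) h1
      rw [hv]
      simp only
      rw [Finset.coe_symmDiff, h2]) (fun U => F (flipOn (U : Set ℂ) '' T))
  unfold avg at *
  congr 1
  have e1 : recolSum W F T = ∑ U ∈ V.powerset, F (flipOn (U : Set ℂ) '' T) := by
    unfold recolSum
    rw [dif_pos hT]
  rw [e1, ← key]
  unfold recolSum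
  rw [dif_pos hT]
  refine Finset.sum_congr rfl fun U hU => ?_
  have hU' : U ⊆ V := Finset.mem_powerset.1 hU
  have e : pts (flipOn (U : Set ℂ) '' T) = pts T := H291.pts_flipOn _ T
  have hf : (pts (flipOn (U : Set ℂ) '' T) ∩ Fr (flipOn (U : Set ℂ) '' T)).Finite := by
    rw [e, ← hvc U hU']
    exact Finset.finite_toSet _
  have e2 : hf.toFinset = v U := by
    apply Finset.coe_injective
    rw [hf.coe_toFinset, hvc U hU', e]
  have e3 : (pts (flipOn (U : Set ℂ) '' T) ∩ Fr (flipOn (U : Set ℂ) '' T)).ncard =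
      (v U).card := by
    rw [Set.ncard_eq_toFinset_card _ hf, e2]
  beta_reduce
  rw [e3, dif_pos hf, e2]
  congr 1
  refine Finset.sum_congr rfl fun U' _ => ?_
  rw [flipOn_image_image, Finset.coe_symmDiff]

/-- The same with a density which does not see the free sites. -/
theorem avg_resample_mul {W : Set ℂ} {T : Set Pt} (hT : (pts T ∩ W).Finite)
    (Fr : Set Pt → Set ℂ) (hFr : ∀ U : Set ℂ, U ⊆ pts T ∩ W → Fr (flipOn U '' T) ⊆ W)
    (hinv : ∀ U : Set ℂ, U ⊆ pts T ∩ W → ∀ U' : Set ℂ, U' ⊆ pts T ∩ Fr (flipOn U '' T) →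
      Fr (flipOn (U' ∆ U) '' T) = Fr (flipOn U '' T)) (D : Set Pt → ℝ≥0∞)
    (hD : ∀ U : Set ℂ, U ⊆ pts T ∩ W → ∀ U' : Set ℂ, U' ⊆ pts T ∩ Fr (flipOn U '' T) →
      D (flipOn (U' ∆ U) '' T) = D (flipOn U '' T)) (F : Set Pt → ℝ≥0∞) :
    avg W (fun T => D T * avg (Fr T) F T) T = avg W (fun T => D T * F T) T := by
  rw [← avg_resample hT Fr hFr hinv (fun T => D T * F T)]
  refine avg_congr_of fun U hU => ?_
  symm
  refine avg_mul_left (fun U' hU' => ?_) F
  rw [H291.pts_flipOn] at hU'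
  rw [flipOn_image_image]
  exact hD U hU U' hU'

/-! ### world 0 -/

section world

open H566

variable (w : W0)

/-- The colouring of the vertices of world 0 given by a coloured configuration: the free sites have
their colours, the frozen vertex is black. -/
noncomputable def co (T : Set Pt) : w.V → Bool
  | Sum.inl _ => true
  | Sum.inr x => H184.col T x.1

/-- The free sites. -/
def fr : Set ℂ := {x | w.Free x}

/-- Sums over the colourings with a black frozen vertex. -/
theorem sum_inl {I M : Type*} [AddCommMonoid M] [Fintype (Unit ⊕ I → Bool)] [Fintype (I → Bool)]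
    (g : (Unit ⊕ I → Bool) → M) :
    ∑ σ : Unit ⊕ I → Bool, (if σ (Sum.inl ()) = true then g σ else 0) =
      ∑ c : I → Bool, g (Sum.elim (fun _ => true) c) := by
  rw [← (Equiv.sumArrowEquivProdArrow Unit I Bool).symm.sum_comp, Fintype.sum_prod_type,
    Finset.sum_comm]
  refine Finset.sum_congr rfl fun c _ => ?_
  rw [Finset.sum_eq_single (fun _ => true)]
  · have h1 : (Equiv.sumArrowEquivProdArrow Unit I Bool).symm (fun _ => true, c) =
        Sum.elim (fun _ => true) c := rfl
    rw [h1, if_pos]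
    rfl
  · intro a _ ha
    rw [if_neg]
    intro h
    apply ha
    funext u
    exact h
  · intro h
    exact absurd (Finset.mem_univ _) h

open Classical in
theorem co_paint {T : Set Pt} (c : H592.Free w.X (fun _ : Unit => w.B) → Bool) :
    co w (paint T (fr w) (fun i => i.1) c) = Sum.elim (fun _ => true) c := by
  funext v
  cases v with
  | inl u => rfl
  | inr x =>
    show H184.col _ _ = c x
    unfold H184.col
    have hx : ((x.1, true) : Pt).1 ∈ fr w := ⟨x.2.1, x.2.2 ()⟩
    rw [Bool.eq_iff_iff, decide_eq_true_eq, mem_paint_of_mem c hx]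
    constructor
    · rintro ⟨i, h1, h2⟩
      have : i = x := Subtype.ext h1
      rw [← this]
      exact h2
    · exact fun h => ⟨x, rfl, h⟩

/-- **The mean over the colourings of world 0 is the average over the recolourings of the free
sites**, for a flip invariant function. -/
theorem mean_eq_avg [Fintype (w.V → Bool)] [Fintype w.V] {T : Set Pt} (hT : OneCol T)
    (hfr : ∀ x, w.Free x → x ∈ pts T)
    (g : (w.V → Bool) → ℝ≥0∞) (hg : ∀ σ, g (neg σ) = g σ) :
    (2 ^ Fintype.card w.V)⁻¹ * ∑ σ : w.V → Bool, g σ =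
      avg (fr w) (fun T' => g (co w T')) T := by
  classical
  have : Finite w.X := w.hull.fin
  let : Fintype (H592.Free w.X (fun _ : Unit => w.B)) := Fintype.ofFinite _
  have he : Function.Injective
      (fun i : H592.Free w.X (fun _ : Unit => w.B) => (i.1 : ℂ)) := fun i j h => Subtype.ext h
  have hr : range (fun i : H592.Free w.X (fun _ : Unit => w.B) => (i.1 : ℂ)) =
      pts T ∩ fr w := by
    ext z
    constructor
    · rintro ⟨i, rfl⟩
      exact ⟨hfr _ ⟨i.2.1, i.2.2 ()⟩, i.2.1, i.2.2 ()⟩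
    · rintro ⟨-, h1, h2⟩
      exact ⟨⟨z, h1, fun _ => h2⟩, rfl⟩
  rw [avg_eq_sum (S := T) (B := fr w) he hr hT (fun T' => g (co w T'))]
  simp_rw [co_paint w]
  have e2 : Fintype.card w.V = Fintype.card (H592.Free w.X (fun _ : Unit => w.B)) + 1 := by
    rw [← Nat.card_eq_fintype_card, ← Nat.card_eq_fintype_card, Nat.card_sum, Nat.card_unique,
      add_comm]
  have e3 : ∑ σ : w.V → Bool, g σ =
      2 * ∑ c : H592.Free w.X (fun _ : Unit => w.B) → Bool, g (Sum.elim (fun _ => true) c) := by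
    rw [← sum_inl g]
    exact (sum_inst _ _ _).trans ((sum_eq_two_mul w.O g hg).trans
      (congrArg _ (sum_inst _ _ _)))
  rw [e2, pow_succ, e3, ENNReal.mul_inv (by simp) (by simp), mul_assoc]
  congr 1
  rw [← mul_assoc, ENNReal.inv_mul_cancel (by simp) (by simp), one_mul]

open Classical in
/-- **The mean energy of world 0**, one-colouring form. -/
theorem En_eq_avg {T : Set Pt} (hT : OneCol T) (hfr : ∀ x, w.Free x → x ∈ pts T)
    (S : (w.V → Bool) → w.D → Prop) (hS : ∀ σ d, S (neg σ) d ↔ S σ d) (Φ : w.D → ℂ) :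
    w.En S Φ = avg (fr w) (fun T' => ENNReal.ofReal (tot w.T (co w T') (rs (S (co w T')) Φ))) T := by
  have h1 : ∀ σ, S (neg σ) = S σ := fun σ => funext fun d => propext (hS σ d)
  rw [← mean_eq_avg w hT hfr
    (fun σ => ENNReal.ofReal (tot w.T σ (rs (S σ) Φ)))
    (fun σ => by simp only [h1, tot_neg])]
  unfold W0.En
  rfl

theorem oneCol_flip {T : Set Pt} (hT : OneCol T) (U : Set ℂ) : OneCol (flipOn U '' T) := by
  rintro z ⟨⟨q, hq, h1⟩, ⟨r, hr, h2⟩⟩
  have a1 : q.1 = z := congrArg Prod.fst h1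
  have a2 : r.1 = z := congrArg Prod.fst h2
  have b1 : (flipOn U q).2 = true := congrArg Prod.snd h1
  have b2 : (flipOn U r).2 = false := congrArg Prod.snd h2
  have hq' : (z, q.2) ∈ T := by rw [← a1]; exact hq
  have hr' : (z, r.2) ∈ T := by rw [← a2]; exact hr
  have e := hT.eq hq' hr'
  unfold flipOn at b1 b2
  rw [a1] at b1
  rw [a2, ← e] at b2
  simp only at b1 b2
  rw [b1] at b2
  exact absurd b2 (by simp)

/-- **The mean energy of the world of `T` under the quenched average**: it may be replaced by the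
energy in the one colouring given by `T` itself. The world does not change when its free sites are
recoloured. -/
theorem avg_En {W : Set ℂ} {T₀ : Set Pt} (hT : (pts T₀ ∩ W).Finite) (h1 : OneCol T₀)
    (wd : Set Pt → W0)
    (hfree : ∀ U : Set ℂ, U ⊆ pts T₀ ∩ W → ∀ x, (wd (flipOn U '' T₀)).Free x → x ∈ pts T₀ ∩ W)
    (hinv : ∀ U : Set ℂ, U ⊆ pts T₀ ∩ W → ∀ U' : Set ℂ, (∀ x ∈ U', (wd (flipOn U '' T₀)).Free x) →
      wd (flipOn (U' ∆ U) '' T₀) = wd (flipOn U '' T₀)) (D : Set Pt → ℝ≥0∞)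
    (hD : ∀ U : Set ℂ, U ⊆ pts T₀ ∩ W → ∀ U' : Set ℂ, (∀ x ∈ U', (wd (flipOn U '' T₀)).Free x) →
      D (flipOn (U' ∆ U) '' T₀) = D (flipOn U '' T₀))
    (S : (w : W0) → (w.V → Bool) → w.D → Prop) (hS : ∀ w σ d, S w (neg σ) d ↔ S w σ d)
    (Φ : (w : W0) → w.D → ℂ) :
    avg W (fun T => D T * (wd T).En (S (wd T)) (Φ (wd T))) T₀ =
      avg W (fun T => D T * ENNReal.ofReal (tot (wd T).T (co (wd T) T)
        (rs (S (wd T) (co (wd T) T)) (Φ (wd T))))) T₀ := by
  have e0 := avg_resample_mul hT (fun T => fr (wd T))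
    (fun U hU x hx => (hfree U hU x hx).2)
    (fun U hU U' hU' => by
      have := hinv U hU U' (fun x hx => (hU' hx).2)
      show fr (wd _) = fr (wd _)
      rw [this]) D
    (fun U hU U' hU' => hD U hU U' (fun x hx => (hU' hx).2))
    (fun T => ENNReal.ofReal (tot (wd T).T (co (wd T) T)
        (rs (S (wd T) (co (wd T) T)) (Φ (wd T)))))
  rw [← e0]
  refine avg_congr_of fun U hU => ?_
  congr 1
  rw [En_eq_avg (wd (flipOn U '' T₀)) (oneCol_flip h1 U)
    (fun x hx => by rw [H291.pts_flipOn]; exact (hfree U hU x hx).1) _ (hS _) _]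
  refine avg_congr_of fun U' hU' => ?_
  have hU2 : ∀ x ∈ U', (wd (flipOn U '' T₀)).Free x := fun x hx => (hU' hx).2
  have h3 := hinv U hU U' hU2
  rw [flipOn_image_image, h3]

end world

end Vale.Agent.P148.R2.H910
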